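import Mathlib

/-! Positive definite functions on groups, in Gram form. -/

namespace Vale.Agent.P318.H612

open Finset ComplexConjugate

variable {G : Type*} [Group G]

/-- `k` is positive definite, in Gram form -/
def PD (k : G → ℂ) : Prop :=
  ∃ (ι : Type) (_ : Fintype ι) (U : G → ι → ℂ), ∀ x y, ∑ i, conj (U x i) * U y i = k (x⁻¹ * y)

theorem PD.one_eq {k : G → ℂ} (h : PD k) : k 1 = ((k 1).re : ℂ) ∧ 0 ≤ (k 1).re := by
  obtain ⟨ι, _, U, hU⟩ := h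
  have h1 := hU 1 1
  have e : ∑ i, conj (U 1 i) * U 1 i = ((∑ i, ‖U 1 i‖ ^ 2 : ℝ) : ℂ) := by
    push_cast
    refine Finset.sum_congr rfl fun i _ => ?_
    rw [Complex.conj_mul']
  rw [e, inv_one, one_mul] at h1
  rw [← h1, Complex.ofReal_re]
  exact ⟨rfl, by positivity⟩

theorem PD.inv {k : G → ℂ} (h : PD k) (g : G) : k g⁻¹ = conj (k g) := by
  obtain ⟨ι, _, U, hU⟩ := h
  have h1 := hU g 1
  have h2 := hU 1 g
  simp only [mul_one, inv_one, one_mul] at h1 h2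
  rw [← h1, ← h2, map_sum]
  refine Finset.sum_congr rfl fun i _ => ?_
  simp [mul_comm]

theorem PD.norm_le {k : G → ℂ} (h : PD k) (g : G) : ‖k g‖ ≤ (k 1).re := by
  have h0 := h.one_eq
  obtain ⟨ι, _, U, hU⟩ := h
  have hx : ∀ x, ∑ i, ‖U x i‖ ^ 2 = (k 1).re := by
    intro x
    have h1 := hU x x
    have e : ∑ i, conj (U x i) * U x i = ((∑ i, ‖U x i‖ ^ 2 : ℝ) : ℂ) := by
      push_cast
      refine Finset.sum_congr rfl fun i _ => ?_
      rw [Complex.conj_mul']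
    rw [e, inv_mul_cancel] at h1
    rw [← h1, Complex.ofReal_re]
  have h2 := hU 1 g
  simp only [inv_one, one_mul] at h2
  rw [← h2]
  have h3 : ‖∑ i, conj (U 1 i) * U g i‖ ≤ ∑ i, ‖U 1 i‖ * ‖U g i‖ := by
    refine (norm_sum_le _ _).trans (le_of_eq ?_)
    refine Finset.sum_congr rfl fun i _ => ?_
    rw [norm_mul, RCLike.norm_conj]
  have h4 : (∑ i, ‖U 1 i‖ * ‖U g i‖) ^ 2 ≤ (∑ i, ‖U 1 i‖ ^ 2) * ∑ i, ‖U g i‖ ^ 2 :=
    Finset.sum_mul_sq_le_sq_mul_sq _ _ _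
  rw [hx, hx] at h4
  have h5 : 0 ≤ ∑ i, ‖U 1 i‖ * ‖U g i‖ := by positivity
  nlinarith [h0.2]

theorem PD.re_le {k : G → ℂ} (h : PD k) (g : G) : (k g).re ≤ (k 1).re :=
  (Complex.re_le_norm _).trans (h.norm_le g)

theorem PD.zero : PD (fun _ : G => (0 : ℂ)) := ⟨Empty, inferInstance, fun _ i => i.elim, by simp⟩

theorem PD.sum {κ : Type} (s : Finset κ) {k : κ → G → ℂ} (h : ∀ j ∈ s, PD (k j)) :
    PD (fun g => ∑ j ∈ s, k j g) := by
  classical
  have h' : ∀ j : s, PD (k j) := fun j => h j j.2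
  choose ι hι U hU using h'
  refine ⟨Σ j : s, ι j, inferInstance, fun x p => U p.1 x p.2, fun x y => ?_⟩
  show _ = ∑ j ∈ s, k j (x⁻¹ * y)
  rw [Fintype.sum_sigma, ← Finset.sum_coe_sort s]
  exact Finset.sum_congr rfl fun j _ => hU j x y

theorem PD.smul {k : G → ℂ} (h : PD k) {c : ℝ} (hc : 0 ≤ c) : PD (fun g => (c : ℂ) * k g) := by
  obtain ⟨ι, _, U, hU⟩ := h
  refine ⟨ι, inferInstance, fun x i => (Real.sqrt c : ℂ) * U x i, fun x y => ?_⟩
  show _ = (c : ℂ) * k (x⁻¹ * y)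
  rw [← hU x y, Finset.mul_sum]
  refine Finset.sum_congr rfl fun i _ => ?_
  rw [map_mul, Complex.conj_ofReal]
  have : (c : ℂ) = (Real.sqrt c : ℂ) * (Real.sqrt c : ℂ) := by
    rw [← Complex.ofReal_mul, Real.mul_self_sqrt hc]
  rw [this]; ring

theorem PD.normSq {k : G → ℂ} (h : PD k) : PD (fun g => ((‖k g‖ ^ 2 : ℝ) : ℂ)) := by
  obtain ⟨ι, _, U, hU⟩ := h
  refine ⟨ι × ι, inferInstance, fun x p => conj (U x p.1) * U x p.2, fun x y => ?_⟩
  have e : (((‖k (x⁻¹ * y)‖ ^ 2 : ℝ)) : ℂ) = conj (k (x⁻¹ * y)) * k (x⁻¹ * y) := by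
    rw [Complex.conj_mul']; push_cast; rfl
  show _ = (((‖k (x⁻¹ * y)‖ ^ 2 : ℝ)) : ℂ)
  rw [e, ← hU x y, map_sum, Finset.sum_mul_sum, Fintype.sum_prod_type]
  refine Finset.sum_congr rfl fun i _ => Finset.sum_congr rfl fun j _ => ?_
  simp only [map_mul, Complex.conj_conj]
  ring

theorem PD.congr {k k' : G → ℂ} (h : PD k) (e : ∀ g, k' g = k g) : PD k' := by
  have : k' = k := funext e
  rw [this]; exact h

theorem PD.descend {H : Type*} [Group H] {k : G → ℂ} (h : PD k) (p : G →* H)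
    (hp : Function.Surjective p) (hk : ∀ g n, p n = 1 → k (g * n) = k g) :
    ∃ k' : H → ℂ, PD k' ∧ ∀ g, k' (p g) = k g := by
  have hinv : ∀ g g', p g = p g' → k g = k g' := by
    intro g g' e
    have := hk g (g⁻¹ * g') (by rw [map_mul, map_inv, e, inv_mul_cancel])
    rw [mul_inv_cancel_left] at this
    exact this.symm
  obtain ⟨s, hs⟩ := hp.hasRightInverse
  refine ⟨fun q => k (s q), ?_, fun g => hinv _ _ (hs _)⟩
  obtain ⟨ι, _, U, hU⟩ := h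
  refine ⟨ι, inferInstance, fun x i => U (s x) i, fun x y => ?_⟩
  rw [hU]
  apply hinv
  rw [map_mul, map_inv, hs, hs, hs]

end Vale.Agent.P318.H612
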