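import Mathlib
import Vale.Agent.P318.H612.PD

/-! Decomposition of a positive definite function along the characters of a central subgroup. -/

namespace Vale.Agent.P318.H612

open Finset ComplexConjugate

variable {G : Type*} [Group G] {A : Type} [AddCommGroup A] [Fintype A]

/-- the component of `k` of central character `ψ` -/
noncomputable def cpt (e : A → G) (k : G → ℂ) (ψ : AddChar A ℂ) (g : G) : ℂ :=
  (Fintype.card A : ℂ)⁻¹ * ∑ a, conj (ψ a) * k (g * e a)

omit [Fintype A] in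
theorem e_zero {e : A → G} (he : ∀ a b, e (a + b) = e a * e b) : e 0 = 1 := by
  have := he 0 0
  rw [add_zero] at this
  exact (left_eq_mul.1 this)

omit [Fintype A] in
theorem e_neg {e : A → G} (he : ∀ a b, e (a + b) = e a * e b) (a : A) : e (-a) = (e a)⁻¹ := by
  have := he (-a) a
  rw [neg_add_cancel, e_zero he] at this
  exact eq_inv_of_mul_eq_one_left this.symm

theorem cpt_mul {e : A → G} (he : ∀ a b, e (a + b) = e a * e b)
    (k : G → ℂ) (ψ : AddChar A ℂ) (g : G) (b : A) :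
    cpt e k ψ (g * e b) = ψ b * cpt e k ψ g := by
  unfold cpt
  rw [mul_left_comm]
  congr 1
  rw [Finset.mul_sum]
  rw [← Equiv.sum_comp (Equiv.addLeft (-b)) (fun a => conj (ψ a) * k (g * e b * e a))]
  refine Finset.sum_congr rfl fun a _ => ?_
  simp only [Equiv.coe_addLeft]
  rw [mul_assoc, ← he, add_neg_cancel_left, AddChar.map_add_eq_mul, map_mul,
    AddChar.map_neg_eq_conj, Complex.conj_conj, mul_assoc]

theorem cpt_PD {e : A → G} (he : ∀ a b, e (a + b) = e a * e b) (hc : ∀ a g, e a * g = g * e a)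
    {k : G → ℂ} (hk : PD k) (ψ : AddChar A ℂ) : PD (cpt e k ψ) := by
  obtain ⟨ι, _, U, hU⟩ := hk
  set N : ℂ := (Fintype.card A : ℂ) with hN
  have hN0 : N ≠ 0 := by
    rw [hN]; exact_mod_cast Fintype.card_ne_zero
  refine ⟨ι, inferInstance, fun x i => N⁻¹ * ∑ a, conj (ψ a) * U (x * e a) i, fun x y => ?_⟩
  have key : ∀ a, ∑ b, conj (ψ b) * k ((x * e a)⁻¹ * (y * e b)) = conj (ψ a) * (N * cpt e k ψ (x⁻¹ * y)) := by
    intro a
    rw [cpt, mul_inv_cancel_left₀ hN0, Finset.mul_sum]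
    rw [← Equiv.sum_comp (Equiv.addLeft a) (fun b => conj (ψ b) * k ((x * e a)⁻¹ * (y * e b)))]
    refine Finset.sum_congr rfl fun b _ => ?_
    simp only [Equiv.coe_addLeft]
    rw [AddChar.map_add_eq_mul, map_mul, mul_assoc]
    congr 3
    rw [he, mul_inv_rev, ← e_neg he, ← mul_assoc, ← mul_assoc, hc (-a), e_neg he]
    rw [mul_assoc x⁻¹, mul_assoc x⁻¹, mul_assoc x⁻¹, mul_assoc x⁻¹]
    congr 1
    rw [mul_assoc (e a)⁻¹, ← hc a y, inv_mul_cancel_left]
  calc ∑ i, conj (N⁻¹ * ∑ a, conj (ψ a) * U (x * e a) i) * (N⁻¹ * ∑ b, conj (ψ b) * U (y * e b) i)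
      = N⁻¹ * N⁻¹ * ∑ i, ∑ a, ∑ b, (ψ a) * (conj (ψ b) * (conj (U (x * e a) i) * U (y * e b) i)) := by
        rw [Finset.mul_sum]
        refine Finset.sum_congr rfl fun i _ => ?_
        have hNc : conj N = N := by rw [hN, Complex.conj_natCast]
        rw [map_mul, map_inv₀, hNc, map_sum, mul_mul_mul_comm, Finset.sum_mul_sum]
        congr 1
        refine Finset.sum_congr rfl fun a _ => Finset.sum_congr rfl fun b _ => ?_
        rw [map_mul, Complex.conj_conj]; ring
    _ = N⁻¹ * N⁻¹ * ∑ a, ψ a * ∑ b, conj (ψ b) * k ((x * e a)⁻¹ * (y * e b)) := by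
        congr 1
        rw [Finset.sum_comm]
        refine Finset.sum_congr rfl fun a _ => ?_
        rw [Finset.sum_comm, Finset.mul_sum]
        refine Finset.sum_congr rfl fun b _ => ?_
        rw [← hU, Finset.mul_sum, Finset.mul_sum]
    _ = N⁻¹ * N⁻¹ * ∑ a : A, (N * cpt e k ψ (x⁻¹ * y)) := by
        congr 1
        refine Finset.sum_congr rfl fun a _ => ?_
        rw [key, ← mul_assoc, Complex.mul_conj', AddChar.norm_apply]; simp
    _ = cpt e k ψ (x⁻¹ * y) := by
        rw [Finset.sum_const, Finset.card_univ, nsmul_eq_mul, ← hN]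
        field_simp

theorem sum_cpt {e : A → G} (he : ∀ a b, e (a + b) = e a * e b) (k : G → ℂ) (g : G) :
    ∑ ψ : AddChar A ℂ, cpt e k ψ g = k g := by
  classical
  unfold cpt
  rw [← Finset.mul_sum, Finset.sum_comm]
  have hN0 : (Fintype.card A : ℂ) ≠ 0 := by exact_mod_cast Fintype.card_ne_zero
  have h1 : ∀ a : A, ∑ ψ : AddChar A ℂ, conj (ψ a) * k (g * e a) =
      if a = 0 then (Fintype.card A : ℂ) * k g else 0 := by
    intro a
    rw [← Finset.sum_mul, ← map_sum, AddChar.sum_apply_eq_ite]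
    split_ifs with h
    · rw [h, e_zero he, mul_one, Complex.conj_natCast]
    · simp
  rw [Finset.sum_congr rfl fun a _ => h1 a, Finset.sum_ite_eq' univ (0 : A)]
  simp [hN0]

theorem sum_cpt_eq_zero [Fintype G] {e : A → G} (he : ∀ a b, e (a + b) = e a * e b)
    (k : G → ℂ) {ψ : AddChar A ℂ} {b : A} (hb : ψ b ≠ 1) : ∑ g, cpt e k ψ g = 0 := by
  have h1 : ∑ g, cpt e k ψ (g * e b) = ∑ g, cpt e k ψ g :=
    Equiv.sum_comp (Equiv.mulRight (e b)) (fun g => cpt e k ψ g)
  have h2 : ∑ g, cpt e k ψ (g * e b) = ψ b * ∑ g, cpt e k ψ g := by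
    rw [Finset.mul_sum]
    exact Finset.sum_congr rfl fun g _ => cpt_mul he k ψ g b
  rw [h2] at h1
  have h3 : (ψ b - 1) * ∑ g, cpt e k ψ g = 0 := by rw [sub_mul, h1]; ring
  rcases mul_eq_zero.1 h3 with h | h
  · exact absurd (sub_eq_zero.1 h) hb
  · exact h

end Vale.Agent.P318.H612
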