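import Mathlib

/-! A finite coarea inequality. -/

namespace Vale.Agent.P318.H612

open Finset

variable {V : Type*} [Fintype V] [DecidableEq V]

/-- If every cut satisfies `a * (number of separated ordered pairs) ≤ separated capacity`,
the same holds for every real function. -/
theorem coarea (c : V → V → ℝ) (a : ℝ)
    (h : ∀ S : Finset V, a * ∑ u, ∑ v, |(if u ∈ S then (1:ℝ) else 0) - (if v ∈ S then 1 else 0)| ≤
      ∑ u, ∑ v, c u v * |(if u ∈ S then (1:ℝ) else 0) - (if v ∈ S then 1 else 0)|)
    (f : V → ℝ) :
    a * ∑ u, ∑ v, |f u - f v| ≤ ∑ u, ∑ v, c u v * |f u - f v| := by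
  suffices H : ∀ (k : ℕ) (f : V → ℝ), (univ.image f).card ≤ k →
      a * ∑ u, ∑ v, |f u - f v| ≤ ∑ u, ∑ v, c u v * |f u - f v| from H _ f le_rfl
  intro k
  induction k with
  | zero =>
    intro f hf
    have : IsEmpty V := by
      by_contra hne
      rw [not_isEmpty_iff] at hne
      obtain ⟨v⟩ := hne
      have : (univ.image f).Nonempty := ⟨f v, mem_image_of_mem _ (mem_univ _)⟩
      have := this.card_pos
      omega
    simp
  | succ k ih =>
    intro f hf
    by_cases hk : (univ.image f).card ≤ k
    · exact ih f hk
    have hcard : (univ.image f).card = k + 1 := by omega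
    rcases Nat.eq_zero_or_pos k with hk0 | hkpos
    · -- constant function
      subst hk0
      rw [Finset.card_eq_one] at hcard
      obtain ⟨t, ht⟩ := hcard
      have hc : ∀ v, f v = t := fun v => by
        have : f v ∈ univ.image f := mem_image_of_mem _ (mem_univ _)
        rw [ht] at this; simpa using this
      simp [hc]
    have hne : (univ.image f).Nonempty := by
      rw [← Finset.card_pos]; omega
    set M := (univ.image f).max' hne with hM
    have hne2 : ((univ.image f).erase M).Nonempty := by
      rw [← Finset.card_pos, Finset.card_erase_of_mem (Finset.max'_mem _ _)]; omega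
    set M2 := ((univ.image f).erase M).max' hne2 with hM2
    have hM2mem : M2 ∈ (univ.image f).erase M := Finset.max'_mem _ _
    have hlt : M2 < M := by
      rw [Finset.mem_erase] at hM2mem
      exact lt_of_le_of_ne (Finset.le_max' _ _ hM2mem.2) hM2mem.1
    have hle : ∀ v, f v ≠ M → f v ≤ M2 := fun v hv =>
      Finset.le_max' _ _ (Finset.mem_erase.2 ⟨hv, mem_image_of_mem _ (mem_univ _)⟩)
    have hleM : ∀ v, f v ≤ M := fun v => Finset.le_max' _ _ (mem_image_of_mem _ (mem_univ _))
    set g : V → ℝ := fun v => min (f v) M2 with hg
    set S : Finset V := univ.filter (fun v => f v = M) with hS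
    have hgcard : (univ.image g).card ≤ k := by
      have hsub : univ.image g ⊆ (univ.image f).erase M := by
        intro t ht
        obtain ⟨v, -, rfl⟩ := mem_image.1 ht
        by_cases hv : f v = M
        · have : g v = M2 := by simp [hg, hv, hlt.le]
          rw [this]; exact hM2mem
        · have : g v = f v := by simp [hg, hle v hv]
          rw [this]
          exact Finset.mem_erase.2 ⟨hv, mem_image_of_mem _ (mem_univ _)⟩
      have := Finset.card_le_card hsub
      rw [Finset.card_erase_of_mem (Finset.max'_mem _ _)] at this
      omega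
    have key : ∀ u v, |f u - f v| = |g u - g v| +
        (M - M2) * |(if u ∈ S then (1:ℝ) else 0) - (if v ∈ S then 1 else 0)| := by
      intro u v
      by_cases hu : f u = M <;> by_cases hv : f v = M
      · simp [hg, hS, hu, hv]
      · have h1 := hle v hv
        have e1 : g u = M2 := by simp [hg, hu, hlt.le]
        have e2 : g v = f v := by simp [hg, h1]
        have m1 : u ∈ S := by simp [hS, hu]
        have m2 : v ∉ S := by simp [hS, hv]
        rw [e1, e2, hu, if_pos m1, if_neg m2, abs_of_nonneg (by linarith), abs_of_nonneg (by linarith)]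
        norm_num
      · have h1 := hle u hu
        have e1 : g v = M2 := by simp [hg, hv, hlt.le]
        have e2 : g u = f u := by simp [hg, h1]
        have m1 : v ∈ S := by simp [hS, hv]
        have m2 : u ∉ S := by simp [hS, hu]
        rw [e1, e2, hv, if_pos m1, if_neg m2, abs_of_nonpos (by linarith), abs_of_nonpos (by linarith)]
        norm_num
      · have e1 : g v = f v := by simp [hg, hle v hv]
        have e2 : g u = f u := by simp [hg, hle u hu]
        have m1 : v ∉ S := by simp [hS, hv]
        have m2 : u ∉ S := by simp [hS, hu]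
        rw [e1, e2, if_neg m1, if_neg m2]; simp
    have i1 := ih g hgcard
    have i2 := h S
    have e1 : ∑ u, ∑ v, |f u - f v| = ∑ u, ∑ v, |g u - g v| + (M - M2) *
        ∑ u, ∑ v, |(if u ∈ S then (1:ℝ) else 0) - (if v ∈ S then 1 else 0)| := by
      rw [Finset.mul_sum, ← Finset.sum_add_distrib]
      refine Finset.sum_congr rfl fun u _ => ?_
      rw [Finset.mul_sum, ← Finset.sum_add_distrib]
      exact Finset.sum_congr rfl fun v _ => key u v
    have e2 : ∑ u, ∑ v, c u v * |f u - f v| = ∑ u, ∑ v, c u v * |g u - g v| + (M - M2) *
        ∑ u, ∑ v, c u v * |(if u ∈ S then (1:ℝ) else 0) - (if v ∈ S then 1 else 0)| := by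
      rw [Finset.mul_sum, ← Finset.sum_add_distrib]
      refine Finset.sum_congr rfl fun u _ => ?_
      rw [Finset.mul_sum, ← Finset.sum_add_distrib]
      refine Finset.sum_congr rfl fun v _ => ?_
      rw [key u v]; ring
    rw [e1, e2]
    have hpos : 0 < M - M2 := by linarith
    nlinarith [mul_le_mul_of_nonneg_left i2 hpos.le]

end Vale.Agent.P318.H612
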