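import Mathlib

/-! Definitions for Uniform Sparsest Cut and the Goemans-Linial relaxation. -/

namespace Vale.Agent.P318.H612

open Finset

/-- symmetric nonnegative capacities with zero diagonal on `{0, ..., n-1}` -/
structure IsCapacity {n : ℕ} (c : Fin n → Fin n → ℝ) : Prop where
  symm : ∀ i j, c i j = c j i
  nonneg : ∀ i j, 0 ≤ c i j
  diag : ∀ i, c i i = 0

/-- the ratio of the cut `(S, complement of S)` -/
noncomputable def ratio {n : ℕ} (c : Fin n → Fin n → ℝ) (S : Finset (Fin n)) : ℝ :=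
  (∑ i ∈ S, ∑ j ∈ Sᶜ, c i j) / ((S.card : ℝ) * ((n : ℝ) - S.card))

/-- the value of Uniform Sparsest Cut: least ratio of a nonempty proper subset -/
noncomputable def Phi {n : ℕ} (c : Fin n → Fin n → ℝ) : ℝ :=
  sInf {r | ∃ S : Finset (Fin n), S.Nonempty ∧ S ≠ univ ∧ r = ratio c S}

/-- negative-type semimetrics on `{0, ..., n-1}` -/
def NegType {n : ℕ} (d : Fin n → Fin n → ℝ) : Prop :=
  (∃ x : Fin n → EuclideanSpace ℝ (Fin n), ∀ i j, d i j = ‖x i - x j‖ ^ 2) ∧
    ∀ i j k, d i k ≤ d i j + d j k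

/-- the value of the Goemans-Linial relaxation -/
noncomputable def GLRelax {n : ℕ} (c : Fin n → Fin n → ℝ) : ℝ :=
  sInf {r | ∃ d : Fin n → Fin n → ℝ, NegType d ∧ (∑ i, ∑ j ∈ Ioi i, d i j) = 1 ∧
    r = ∑ i, ∑ j ∈ Ioi i, c i j * d i j}

end Vale.Agent.P318.H612
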