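import Mathlib
import Vale.Agent.P318.H612.PD

/-! The mean square of a positive definite function with a nontrivial central character. -/

namespace Vale.Agent.P318.H612

open Finset ComplexConjugate Matrix ComplexOrder

variable {G : Type*} [Group G] [Fintype G]

/-- the convolution matrix -/
def WM (F : G → ℂ) : Matrix G G ℂ := Matrix.of fun x y => F (x⁻¹ * y)

theorem WM_posSemidef {F : G → ℂ} (hF : PD F) : (WM F).PosSemidef := by
  obtain ⟨ι, _, U, hU⟩ := hF
  have : WM F = (Matrix.of fun i x => U x i : Matrix ι G ℂ)ᴴ * (Matrix.of fun i x => U x i) := by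
    ext x y
    rw [Matrix.mul_apply]
    simp only [WM, Matrix.of_apply, Matrix.conjTranspose_apply]
    rw [← hU x y]
    rfl
  rw [this]
  exact Matrix.posSemidef_conjTranspose_mul_self _

/-- translates of eigenvectors are eigenvectors -/
theorem WM_translate {F : G → ℂ} {v : G → ℂ} {l : ℂ} (hv : ∀ g, (WM F *ᵥ v) g = l * v g) (x g : G) :
    (WM F *ᵥ (fun h => v (x⁻¹ * h))) g = l * v (x⁻¹ * g) := by
  rw [← hv]
  simp only [Matrix.mulVec, dotProduct, WM, Matrix.of_apply]
  rw [← Equiv.sum_comp (Equiv.mulLeft x)]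
  refine Finset.sum_congr rfl fun h _ => ?_
  simp only [Equiv.coe_mulLeft]
  rw [inv_mul_cancel_left, _root_.mul_inv_rev, inv_inv, mul_assoc]

theorem WM_central {F : G → ℂ} {v : G → ℂ} {l ω : ℂ} {z : G} (hz : ∀ g, z * g = g * z)
    (hFz : ∀ g, F (g * z) = ω * F g)
    (hv : ∀ g, (WM F *ᵥ v) g = l * v g) (g : G) : l * v (z⁻¹ * g) = ω * (l * v g) := by
  rw [← hv, ← hv]
  simp only [Matrix.mulVec, dotProduct, WM, Matrix.of_apply]
  rw [Finset.mul_sum]
  refine Finset.sum_congr rfl fun h _ => ?_
  rw [← mul_assoc, ← hFz]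
  congr 2
  rw [_root_.mul_inv_rev, inv_inv, mul_assoc, mul_assoc, hz]

/-- a nonzero eigenvalue for which every eigenvector is a multiple of a given one cannot occur -/
theorem not_simple {F : G → ℂ} {a b z : G} (hz : ∀ g, z * g = g * z) {ω : ℂ} (hω : ω ≠ 1)
    (hFz : ∀ g, F (g * z) = ω * F g) (hab : a * b = z * (b * a)) {v : G → ℂ} {l : ℂ} (hl : l ≠ 0)
    (hv : ∀ g, (WM F *ᵥ v) g = l * v g) (hv0 : v ≠ 0)
    (hs : ∀ w : G → ℂ, (∀ g, (WM F *ᵥ w) g = l * w g) → ∃ α : ℂ, ∀ g, w g = α * v g) : False := by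
  have h1 : ∀ x, ∃ α : ℂ, ∀ g, v (x⁻¹ * g) = α * v g := fun x =>
    hs (fun h => v (x⁻¹ * h)) (fun g => WM_translate hv x g)
  choose α hα using h1
  have hv1 : v 1 ≠ 0 := by
    intro h0
    apply hv0
    funext x
    have := hα x⁻¹ 1
    rw [inv_inv, mul_one, h0, mul_zero] at this
    simpa using this
  have h2 : ∀ x y, v (x * y) * v 1 = v x * v y := by
    intro x y
    have e1 := hα x⁻¹ y
    have e2 := hα x⁻¹ 1
    rw [inv_inv] at e1 e2
    rw [mul_one] at e2
    rw [e1, e2]; ring
  have h3 : v (a * b) = v (b * a) := by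
    have e1 := h2 a b
    have e2 := h2 b a
    apply mul_right_cancel₀ hv1
    rw [e1, e2, mul_comm]
  have h4 : v z * v (b * a) = v (b * a) * v 1 := by
    rw [← h2 z (b * a), ← hab, h3]
  have h5 : v (b * a) ≠ 0 := by
    intro h0
    have e1 := h2 (b * a)⁻¹ (b * a)
    rw [inv_mul_cancel, h0, mul_zero] at e1
    exact hv1 (mul_self_eq_zero.1 e1)
  have h6 : v z = v 1 := by
    apply mul_right_cancel₀ h5
    rw [h4, mul_comm]
  have h7 := WM_central hz hFz hv z
  rw [inv_mul_cancel, h6, mul_left_comm] at h7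
  have h8 : v 1 = ω * v 1 := mul_left_cancel₀ hl h7
  have h9 : (ω - 1) * v 1 = 0 := by rw [sub_mul, ← h8]; ring
  rcases mul_eq_zero.1 h9 with h | h
  · exact hω (sub_eq_zero.1 h)
  · exact hv1 h

theorem mean_le {F : G → ℂ} (hF : PD F) {a b z : G} (hz : ∀ g, z * g = g * z) {ω : ℂ} (hω : ω ≠ 1)
    (hFz : ∀ g, F (g * z) = ω * F g) (hab : a * b = z * (b * a)) :
    ∑ g, ‖F g‖ ^ 2 ≤ (Fintype.card G : ℝ) * ((F 1).re ^ 2 / 2) := by
  classical
  have hW := WM_posSemidef hF
  have hH : (WM F).IsHermitian := hW.isHermitian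
  set lam := hH.eigenvalues with hlam
  have hnn : ∀ i, 0 ≤ lam i := hW.eigenvalues_nonneg
  have hN0 : (0 : ℝ) < Fintype.card G := by exact_mod_cast Fintype.card_pos
  -- trace
  have htr : ∑ i, lam i = (Fintype.card G : ℝ) * (F 1).re := by
    have h1 := hH.trace_eq_sum_eigenvalues
    have h2 : (WM F).trace = (Fintype.card G : ℂ) * F 1 := by
      simp [Matrix.trace, WM]
    rw [h2] at h1
    have h3 := congrArg Complex.re h1
    rw [hF.one_eq.1] at h3
    have h4 : ((Fintype.card G : ℂ) * ((F 1).re : ℂ)).re = (Fintype.card G : ℝ) * (F 1).re := by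
      rw [← Complex.ofReal_natCast, ← Complex.ofReal_mul, Complex.ofReal_re]
    rw [h4] at h3
    rw [h3, Complex.re_sum]
    rfl
  -- trace of the square
  set U : Matrix G G ℂ := (hH.eigenvectorUnitary : Matrix G G ℂ) with hU
  have hUU : star U * U = 1 := by
    rw [hU]; exact Unitary.coe_star_mul_self _
  have hUU' : U * star U = 1 := by
    rw [hU]; exact Unitary.coe_mul_star_self _
  set D : Matrix G G ℂ := diagonal (RCLike.ofReal ∘ lam) with hD
  have hWU : WM F = U * D * star U := by
    have := hH.spectral_theorem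
    rw [Unitary.conjStarAlgAut_apply] at this
    exact this
  have htr2 : (Fintype.card G : ℝ) * ∑ g, ‖F g‖ ^ 2 = ∑ i, lam i ^ 2 := by
    have h1 : (WM F * WM F).trace = ((∑ i, lam i ^ 2 : ℝ) : ℂ) := by
      have e : WM F * WM F = U * (D * D * star U) := by
        rw [hWU]
        calc U * D * star U * (U * D * star U) = U * D * (star U * U) * D * star U := by
              simp only [Matrix.mul_assoc]
          _ = _ := by rw [hUU]; simp only [Matrix.mul_assoc, Matrix.mul_one]
      rw [e, Matrix.trace_mul_comm, Matrix.mul_assoc, Matrix.mul_assoc, hUU, Matrix.mul_one, hD,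
        Matrix.diagonal_mul_diagonal, Matrix.trace_diagonal]
      push_cast
      refine Finset.sum_congr rfl fun i _ => ?_
      simp [sq]
    have h2 : (WM F * WM F).trace = (((Fintype.card G : ℝ) * ∑ g, ‖F g‖ ^ 2 : ℝ) : ℂ) := by
      have e1 : ∀ x, (WM F * WM F) x x = ((∑ g, ‖F g‖ ^ 2 : ℝ) : ℂ) := by
        intro x
        rw [Matrix.mul_apply]
        rw [← Equiv.sum_comp (Equiv.mulLeft x)]
        push_cast
        refine Finset.sum_congr rfl fun g _ => ?_
        simp only [WM, Matrix.of_apply, Equiv.coe_mulLeft]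
        rw [inv_mul_cancel_left]
        have : (x * g)⁻¹ * x = g⁻¹ := by group
        rw [this, hF.inv, Complex.mul_conj']
      rw [Matrix.trace]
      simp only [Matrix.diag_apply, e1]
      rw [Finset.sum_const, Finset.card_univ, nsmul_eq_mul]
      push_cast
      ring
    rw [h1] at h2
    exact_mod_cast h2.symm
  -- the largest eigenvalue
  obtain ⟨i0, -, hi0⟩ := Finset.exists_max_image (univ : Finset G) lam ⟨1, mem_univ _⟩
  have htop : 2 * lam i0 ≤ ∑ i, lam i := by
    rcases (hnn i0).eq_or_lt with h0 | h0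
    · rw [← h0, mul_zero]; exact Finset.sum_nonneg fun i _ => hnn i
    by_cases hj : ∃ j, j ≠ i0 ∧ lam j = lam i0
    · obtain ⟨j, hj1, hj2⟩ := hj
      calc 2 * lam i0 = ∑ i ∈ ({j, i0} : Finset G), lam i := by
            rw [Finset.sum_pair hj1, hj2]; ring
        _ ≤ ∑ i, lam i := Finset.sum_le_sum_of_subset_of_nonneg (Finset.subset_univ _)
            (fun i _ _ => hnn i)
    · exfalso
      push Not at hj
      set v : G → ℂ := U *ᵥ Pi.single i0 1 with hv
      have hl : ((lam i0 : ℝ) : ℂ) ≠ 0 := by exact_mod_cast h0.ne'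
      refine not_simple hz hω hFz hab (v := v) hl ?_ ?_ ?_
      · intro g
        have : WM F *ᵥ v = ((lam i0 : ℝ) : ℂ) • v := by
          rw [hv, hWU, Matrix.mulVec_mulVec, Matrix.mul_assoc, hUU, Matrix.mul_one,
            ← Matrix.mulVec_mulVec, hD, Matrix.diagonal_mulVec_single, mul_one]
          rw [← Matrix.mulVec_smul]
          congr 1
          ext k
          by_cases hk : k = i0
          · subst hk; simp
          · simp [hk]
        rw [this]; simp
      · intro h
        have : star U *ᵥ v = Pi.single i0 1 := by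
          rw [hv, Matrix.mulVec_mulVec, hUU, Matrix.one_mulVec]
        rw [h, Matrix.mulVec_zero] at this
        have := congrFun this i0
        simp at this
      · intro w hw
        have hw' : WM F *ᵥ w = ((lam i0 : ℝ) : ℂ) • w := by
          funext g; rw [hw]; simp
        set u := star U *ᵥ w with hu
        have hDu : D *ᵥ u = ((lam i0 : ℝ) : ℂ) • u := by
          rw [hu, ← Matrix.mulVec_smul, ← hw', hWU, Matrix.mulVec_mulVec, Matrix.mulVec_mulVec]
          congr 1
          rw [← Matrix.mul_assoc, ← Matrix.mul_assoc, hUU, Matrix.one_mul]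
        have hu0 : ∀ j, j ≠ i0 → u j = 0 := by
          intro j hj'
          have := congrFun hDu j
          rw [hD, Matrix.mulVec_diagonal] at this
          simp only [Function.comp_apply, Pi.smul_apply, smul_eq_mul] at this
          have h3 : (((lam j : ℝ) : ℂ) - ((lam i0 : ℝ) : ℂ)) * u j = 0 := by
            rw [sub_mul]
            exact sub_eq_zero.2 this
          rcases mul_eq_zero.1 h3 with h4 | h4
          · exfalso
            apply hj j hj'
            exact_mod_cast sub_eq_zero.1 h4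
          · exact h4
        have hu1 : u = (u i0) • (Pi.single i0 1 : G → ℂ) := by
          funext k
          by_cases hk : k = i0
          · subst hk; simp
          · simp [hk, hu0 k hk]
        refine ⟨u i0, fun g => ?_⟩
        have : w = U *ᵥ u := by
          rw [hu, Matrix.mulVec_mulVec, hUU', Matrix.one_mulVec]
        rw [this, hu1, Matrix.mulVec_smul, ← hv]
        simp
  have hsq : ∑ i, lam i ^ 2 ≤ lam i0 * ∑ i, lam i := by
    rw [Finset.mul_sum]
    refine Finset.sum_le_sum fun i _ => ?_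
    rw [sq]
    exact mul_le_mul_of_nonneg_right (hi0 i (mem_univ _)) (hnn i)
  have hfin : (Fintype.card G : ℝ) * ∑ g, ‖F g‖ ^ 2 ≤
      (Fintype.card G : ℝ) * ((Fintype.card G : ℝ) * ((F 1).re ^ 2 / 2)) := by
    rw [htr2]
    refine hsq.trans ?_
    have h1 : lam i0 ≤ (∑ i, lam i) / 2 := by linarith
    have h2 : 0 ≤ ∑ i, lam i := Finset.sum_nonneg fun i _ => hnn i
    calc lam i0 * ∑ i, lam i ≤ (∑ i, lam i) / 2 * ∑ i, lam i := mul_le_mul_of_nonneg_right h1 h2
      _ = _ := by rw [htr]; ring
  exact le_of_mul_le_mul_left hfin hN0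

end Vale.Agent.P318.H612
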