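import Mathlib
import Vale.Agent.P318.H612.Central
import Vale.Agent.P318.H612.Mean

/-! One descent step: from a positive definite function on `G` to one that is constant on the
cosets of a central subgroup. -/

namespace Vale.Agent.P318.H612

open Finset ComplexConjugate

variable {G : Type*} [Group G] [Fintype G]

/-- replacing `F` by `|F|^2 / F(1)` -/
theorem square_step {F : G → ℂ} (hF : PD F) {a b z : G} (hz : ∀ g, z * g = g * z)
    {ω : ℂ} (hω : ω ≠ 1) (hFz : ∀ g, F (g * z) = ω * F g) (hab : a * b = z * (b * a))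
    (hsum : ∑ g, F g = 0) :
    ∃ F' : G → ℂ, PD F' ∧ (∀ g, F' g = ((((F 1).re)⁻¹ : ℝ) : ℂ) * ((‖F g‖ ^ 2 : ℝ) : ℂ)) ∧
      (∀ g, (F' 1).re - (F' g).re ≤ 2 * ((F 1).re - (F g).re)) ∧
      (∑ g, ((F 1).re - (F g).re) ≤ 2 * ∑ g, ((F' 1).re - (F' g).re)) := by
  have h1 := hF.one_eq
  set t := (F 1).re with ht
  have hn1 : ‖F 1‖ = t := by
    rw [h1.1, Complex.norm_real, Real.norm_of_nonneg h1.2]
  have hre : ∀ s : ℝ, ((((t)⁻¹ : ℝ) : ℂ) * ((s : ℝ) : ℂ)).re = t⁻¹ * s := by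
    intro g
    rw [← Complex.ofReal_mul, Complex.ofReal_re]
  refine ⟨fun g => (((t)⁻¹ : ℝ) : ℂ) * ((‖F g‖ ^ 2 : ℝ) : ℂ), hF.normSq.smul (inv_nonneg.2 h1.2),
    fun g => rfl, ?_, ?_⟩
  · intro g
    simp only [hre, hn1]
    have h2 : ‖F g‖ ≤ t := hF.norm_le g
    have h3 : (F g).re ≤ ‖F g‖ := Complex.re_le_norm _
    have h4 : 0 ≤ ‖F g‖ := norm_nonneg _
    rcases h1.2.eq_or_lt with h0 | h0
    · rw [← h0] at h2 ⊢
      simp only [inv_zero, zero_mul]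
      linarith
    · have h5 : t⁻¹ * t ^ 2 - t⁻¹ * ‖F g‖ ^ 2 ≤ 2 * (t - ‖F g‖) := by
        rw [← mul_sub, inv_mul_le_iff₀ h0]
        nlinarith [sq_nonneg (t - ‖F g‖)]
      linarith
  · simp only [hre, hn1]
    have hm := mean_le hF hz hω hFz hab
    rw [← ht] at hm
    have h2 : ∑ g, (F g).re = 0 := by
      rw [← Complex.re_sum, hsum, Complex.zero_re]
    rw [Finset.sum_sub_distrib, h2, sub_zero, Finset.sum_sub_distrib,
      ← Finset.mul_sum (univ : Finset G) (fun g => ‖F g‖ ^ 2)]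
    rw [Finset.sum_const, Finset.sum_const, Finset.card_univ, nsmul_eq_mul, nsmul_eq_mul]
    rcases h1.2.eq_or_lt with h0 | h0
    · rw [← h0]; simp
    · have h3 : t⁻¹ * ∑ g, ‖F g‖ ^ 2 ≤ (Fintype.card G : ℝ) * (t / 2) := by
        rw [inv_mul_le_iff₀ h0]
        refine hm.trans (le_of_eq ?_)
        ring
      have h4 : t⁻¹ * t ^ 2 = t := by
        rw [sq, inv_mul_cancel_left₀ h0.ne']
      rw [h4]
      linarith

variable {A : Type} [AddCommGroup A] [Fintype A]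

theorem step {e : A → G} (he : ∀ a b, e (a + b) = e a * e b) (hc : ∀ a g, e a * g = g * e a)
    (hNC : ∀ ψ : AddChar A ℂ, ψ ≠ 0 → ∃ a x y, x * y = e a * (y * x) ∧ ψ a ≠ 1)
    {k : G → ℂ} (hk : PD k) :
    ∃ k' : G → ℂ, PD k' ∧ (∀ g a, k' (g * e a) = k' g) ∧
      (∀ g, (k' 1).re - (k' g).re ≤ 2 * ((k 1).re - (k g).re)) ∧
      (∑ g, ((k 1).re - (k g).re) ≤ 2 * ∑ g, ((k' 1).re - (k' g).re)) := by
  classical
  have H : ∀ ψ : AddChar A ℂ, ∃ F' : G → ℂ, PD F' ∧ (∀ g a, F' (g * e a) = F' g) ∧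
      (∀ g, (F' 1).re - (F' g).re ≤ 2 * ((cpt e k ψ 1).re - (cpt e k ψ g).re)) ∧
      (∑ g, ((cpt e k ψ 1).re - (cpt e k ψ g).re) ≤ 2 * ∑ g, ((F' 1).re - (F' g).re)) := by
    intro ψ
    have hP := cpt_PD he hc hk ψ
    by_cases hψ : ψ = 0
    · refine ⟨cpt e k ψ, hP, ?_, ?_, ?_⟩
      · intro g a
        rw [cpt_mul he, hψ, AddChar.zero_apply, one_mul]
      · intro g
        have := hP.re_le g
        linarith
      · have : 0 ≤ ∑ g, ((cpt e k ψ 1).re - (cpt e k ψ g).re) :=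
          Finset.sum_nonneg fun g _ => sub_nonneg.2 (hP.re_le g)
        linarith
    · obtain ⟨a, x, y, hxy, ha⟩ := hNC ψ hψ
      obtain ⟨F', h1, h2, h3, h4⟩ := square_step hP (hc a) ha (fun g => cpt_mul he k ψ g a) hxy
        (sum_cpt_eq_zero he k ha)
      refine ⟨F', h1, ?_, h3, h4⟩
      intro g b
      rw [h2, h2, cpt_mul he, norm_mul, AddChar.norm_apply, one_mul]
  choose F' h1 h2 h3 h4 using H
  refine ⟨fun g => ∑ ψ, F' ψ g, PD.sum univ fun ψ _ => h1 ψ, ?_, ?_, ?_⟩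
  · intro g a
    exact Finset.sum_congr rfl fun ψ _ => h2 ψ g a
  · intro g
    simp only [Complex.re_sum]
    rw [← sum_cpt he k 1, ← sum_cpt he k g, Complex.re_sum, Complex.re_sum,
      ← Finset.sum_sub_distrib, ← Finset.sum_sub_distrib, Finset.mul_sum]
    exact Finset.sum_le_sum fun ψ _ => h3 ψ g
  · simp only [Complex.re_sum, ← Finset.sum_sub_distrib]
    have e1 : ∑ g, ((k 1).re - (k g).re) =
        ∑ ψ : AddChar A ℂ, ∑ g, ((cpt e k ψ 1).re - (cpt e k ψ g).re) := by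
      rw [Finset.sum_comm]
      refine Finset.sum_congr rfl fun g _ => ?_
      rw [Finset.sum_sub_distrib, ← Complex.re_sum, ← Complex.re_sum, sum_cpt he, sum_cpt he]
    have e2 : ∑ g, ∑ ψ : AddChar A ℂ, ((F' ψ 1).re - (F' ψ g).re) =
        ∑ ψ : AddChar A ℂ, ∑ g, ((F' ψ 1).re - (F' ψ g).re) := Finset.sum_comm
    rw [e1, e2, Finset.mul_sum]
    exact Finset.sum_le_sum fun ψ _ => h4 ψ

end Vale.Agent.P318.H612
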