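import Mathlib
import Vale.Agent.P318.H612.Step

/-! Descent from a nilpotent group to an abelian quotient. -/

namespace Vale.Agent.P318.H612

open Finset ComplexConjugate commutatorElement

theorem fiber_sum {X Y : Type*} [Fintype X] [Fintype Y] [DecidableEq Y] (p : X → Y) (c : ℕ)
    (hp : ∀ y, (univ.filter (fun x => p x = y)).card = c) (f : Y → ℝ) :
    ∑ x, f (p x) = c * ∑ y, f y := by
  rw [← Finset.sum_fiberwise univ p (fun x => f (p x)), Finset.mul_sum]
  refine Finset.sum_congr rfl fun y _ => ?_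
  have : ∀ x ∈ univ.filter (fun x => p x = y), f (p x) = f y := by
    intro x hx
    rw [(Finset.mem_filter.1 hx).2]
  rw [Finset.sum_congr rfl this, Finset.sum_const, hp, nsmul_eq_mul]

theorem hom_sum {G H : Type*} [Group G] [Group H] [Fintype G] [Fintype H] (p : G →* H)
    (hp : Function.Surjective p) :
    ∃ c : ℕ, ∀ f : H → ℝ, ∑ g, f (p g) = c * ∑ h, f h := by
  classical
  refine ⟨(univ.filter (fun x => p x = 1)).card, fun f => fiber_sum p _ (fun y => ?_) f⟩
  exact MonoidHom.card_fiber_eq_of_mem_range p (hp y) (hp 1)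

theorem nilp_descend (κ : ℕ) : ∀ (G : Type) [Group G] [Fintype G],
    (⊤ : Subgroup G).lowerCentralSeries (κ + 1) = ⊥ → ∀ {k : G → ℂ}, PD k →
    ∃ (B : Type) (_ : CommGroup B) (_ : Fintype B) (p : G →* B), Function.Surjective p ∧
      ∃ k' : B → ℂ, PD k' ∧
        (∀ g, (k' 1).re - (k' (p g)).re ≤ 2 ^ κ * ((k 1).re - (k g).re)) ∧
        (∑ g, ((k 1).re - (k g).re) ≤ 2 ^ κ * ∑ g, ((k' 1).re - (k' (p g)).re)) := by
  induction κ with
  | zero =>
    intro G _ _ hG k hk
    rw [zero_add, Subgroup.lowerCentralSeries_one_eq_bot_iff] at hG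
    refine ⟨G, { (inferInstance : Group G) with mul_comm := mul_comm' }, inferInstance,
      MonoidHom.id G, Function.surjective_id, k, hk, ?_, ?_⟩
    · intro g; simp
    · simp
  | succ κ ih =>
    intro G _ _ hG k hk
    classical
    set Z : Subgroup G := (⊤ : Subgroup G).lowerCentralSeries (κ + 1) with hZ
    have hZc : ∀ z ∈ Z, ∀ g, z * g = g * z := by
      intro z hz g
      have h1 : ⁅z, g⁆ ∈ (⊤ : Subgroup G).lowerCentralSeries (κ + 1 + 1) := by
        rw [Subgroup.lowerCentralSeries_succ]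
        exact Subgroup.commutator_mem_commutator hz (Subgroup.mem_top g)
      rw [hG, Subgroup.mem_bot] at h1
      exact commutatorElement_eq_one_iff_mul_comm.1 h1
    let _ : CommGroup Z := { (inferInstance : Group Z) with
      mul_comm := fun a b => Subtype.ext (hZc a.1 a.2 b.1) }
    let e : Additive Z → G := fun a => ((Additive.toMul a : Z) : G)
    have he : ∀ a b, e (a + b) = e a * e b := fun a b => rfl
    have hc : ∀ a g, e a * g = g * e a := fun a g => hZc _ (Additive.toMul a).2 g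
    have hNC : ∀ ψ : AddChar (Additive Z) ℂ, ψ ≠ 0 →
        ∃ a x y, x * y = e a * (y * x) ∧ ψ a ≠ 1 := by
      intro ψ hψ
      by_contra hcon
      push Not at hcon
      apply hψ
      have key : ∀ (z : G) (hz : z ∈ Z), ψ (Additive.ofMul ⟨z, hz⟩) = 1 := by
        intro z hz
        have hz' : z ∈ Subgroup.closure
            { x | ∃ p ∈ (⊤ : Subgroup G).lowerCentralSeries κ, ∃ q ∈ (⊤ : Subgroup G), ⁅p, q⁆ = x } := hz
        refine Subgroup.closure_induction
          (p := fun w hw => ψ (Additive.ofMul (⟨w, hw⟩ : Z)) = 1) ?_ ?_ ?_ ?_ hz'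
        · rintro w ⟨a, ha, b, hb, rfl⟩
          refine hcon (Additive.ofMul ⟨⁅a, b⁆, _⟩) a b ?_
          show a * b = ⁅a, b⁆ * (b * a)
          rw [commutatorElement_def]
          group
        · exact AddChar.map_zero_eq_one ψ
        · intro x y hx hy h1 h2
          have : (Additive.ofMul (⟨x * y, Subgroup.mul_mem _ hx hy⟩ : Z)) =
            Additive.ofMul (⟨x, hx⟩ : Z) + Additive.ofMul (⟨y, hy⟩ : Z) := rfl
          rw [this, AddChar.map_add_eq_mul, h1, h2, one_mul]
        · intro x hx h1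
          have : (Additive.ofMul (⟨x⁻¹, Subgroup.inv_mem _ hx⟩ : Z)) =
            -Additive.ofMul (⟨x, hx⟩ : Z) := rfl
          rw [this, AddChar.map_neg_eq_conj, h1, map_one]
      ext a
      rw [AddChar.zero_apply]
      exact key _ (Additive.toMul a).2
    obtain ⟨k₁, hk₁, hinv, hi, hii⟩ := step he hc hNC hk
    have : Z.Normal := by rw [hZ]; infer_instance
    obtain ⟨k₂, hk₂, hk₂'⟩ := hk₁.descend (QuotientGroup.mk' Z) (QuotientGroup.mk'_surjective Z)
      (by
        intro g n hn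
        have hn' : n ∈ Z := (QuotientGroup.eq_one_iff n).1 hn
        exact hinv g (Additive.ofMul ⟨n, hn'⟩))
    have hQ : (⊤ : Subgroup (G ⧸ Z)).lowerCentralSeries (κ + 1) = ⊥ := by
      rw [← Subgroup.map_top_of_surjective (QuotientGroup.mk' Z) (QuotientGroup.mk'_surjective Z),
        ← Subgroup.map_lowerCentralSeries, ← hZ, Subgroup.map_eq_bot_iff, QuotientGroup.ker_mk']
    obtain ⟨B, _, _, p, hp, k', hk', ha, hb⟩ := ih (G ⧸ Z) hQ hk₂
    obtain ⟨c, hcs⟩ := hom_sum (QuotientGroup.mk' Z) (QuotientGroup.mk'_surjective Z)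
    have h1 : k₂ 1 = k₁ 1 := by
      have := hk₂' 1
      rwa [map_one] at this
    refine ⟨B, inferInstance, inferInstance, p.comp (QuotientGroup.mk' Z),
      hp.comp (QuotientGroup.mk'_surjective Z), k', hk', ?_, ?_⟩
    · intro g
      have e1 := ha (QuotientGroup.mk' Z g)
      rw [hk₂', h1] at e1
      have e2 := hi g
      have e3 : (2 : ℝ) ^ κ * ((k₁ 1).re - (k₁ g).re) ≤ 2 ^ κ * (2 * ((k 1).re - (k g).re)) :=
        mul_le_mul_of_nonneg_left e2 (by positivity)
      calc (k' 1).re - (k' (p.comp (QuotientGroup.mk' Z) g)).re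
          ≤ (2 : ℝ) ^ κ * ((k₁ 1).re - (k₁ g).re) := e1
        _ ≤ 2 ^ κ * (2 * ((k 1).re - (k g).re)) := e3
        _ = _ := by ring
    · have e1 := hcs (fun q => (k₂ 1).re - (k₂ q).re)
      have e2 := hcs (fun q => (k' 1).re - (k' (p q)).re)
      simp only [hk₂', h1] at e1
      calc ∑ g, ((k 1).re - (k g).re) ≤ 2 * ∑ g, ((k₁ 1).re - (k₁ g).re) := hii
        _ = 2 * (c * ∑ q, ((k₂ 1).re - (k₂ q).re)) := by rw [e1, h1]
        _ ≤ 2 * (c * (2 ^ κ * ∑ q, ((k' 1).re - (k' (p q)).re))) := by gcongr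
        _ = 2 ^ (κ + 1) * (c * ∑ q, ((k' 1).re - (k' (p q)).re)) := by ring
        _ = _ := by rw [← e2]; rfl

end Vale.Agent.P318.H612
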