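import Mathlib
import Vale.Agent.P318.H612.PD
import Vale.Agent.P318.H612.Nilp

/-! Averaging over a transitive action; the positive definite function of a semimetric of
negative type. -/

namespace Vale.Agent.P318.H612

open Finset ComplexConjugate

variable {V : Type} [Fintype V] [DecidableEq V] {G : Type} [Group G] [Fintype G] [MulAction G V]

theorem orbit_sum [MulAction.IsPretransitive G V] (o : V) :
    ∃ c : ℕ, 0 < c ∧ ∀ f : V → ℝ, ∑ g : G, f (g • o) = c * ∑ v, f v := by
  classical
  refine ⟨(univ.filter (fun g : G => g • o = o)).card, ?_, fun f =>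
    fiber_sum (fun g : G => g • o) _ (fun y => ?_) f⟩
  · exact Finset.card_pos.2 ⟨1, by simp⟩
  · obtain ⟨s, hs⟩ := MulAction.exists_smul_eq G o y
    symm
    refine Finset.card_bij (fun g _ => s * g) ?_ ?_ ?_
    · intro g hg
      simp only [mem_filter, mem_univ, true_and] at hg ⊢
      rw [mul_smul, hg, hs]
    · intro g _ g' _ h
      exact mul_left_cancel h
    · intro g hg
      simp only [mem_filter, mem_univ, true_and] at hg
      refine ⟨s⁻¹ * g, ?_, mul_inv_cancel_left _ _⟩
      simp only [mem_filter, mem_univ, true_and]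
      rw [mul_smul, hg, ← hs, inv_smul_smul]

omit [DecidableEq V] in
/-- double sums over an invariant weight -/
theorem double_sum {o : V} {N : ℕ} (hN : ∀ f : V → ℝ, ∑ g : G, f (g • o) = N * ∑ v, f v)
    {c : V → V → ℝ} (hinv : ∀ (g : G) u v, c (g • u) (g • v) = c u v) (Q : V → V → ℝ) :
    (N : ℝ) ^ 2 * ∑ u, ∑ v, c u v * Q u v =
      ∑ t : G, c o (t • o) * ∑ g : G, Q (g • o) ((g * t) • o) := by
  have h1 : (N : ℝ) ^ 2 * ∑ u, ∑ v, c u v * Q u v =
      ∑ g : G, ∑ h : G, c (g • o) (h • o) * Q (g • o) (h • o) := by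
    rw [hN (fun u => ∑ h : G, c u (h • o) * Q u (h • o))]
    rw [sq, mul_assoc, Finset.mul_sum]
    congr 1
    refine Finset.sum_congr rfl fun u _ => ?_
    rw [hN (fun v => c u v * Q u v)]
  rw [h1]
  have h2 : ∀ g : G, ∑ h : G, c (g • o) (h • o) * Q (g • o) (h • o) =
      ∑ t : G, c o (t • o) * Q (g • o) ((g * t) • o) := by
    intro g
    rw [← Equiv.sum_comp (Equiv.mulLeft g)]
    refine Finset.sum_congr rfl fun t _ => ?_
    simp only [Equiv.coe_mulLeft]
    rw [mul_smul, hinv]
  rw [Finset.sum_congr rfl fun g _ => h2 g, Finset.sum_comm]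
  refine Finset.sum_congr rfl fun t _ => ?_
  rw [Finset.mul_sum]

/-- the averaged semimetric on the group -/
def psi (d : V → V → ℝ) (o : V) (t : G) : ℝ := ∑ g : G, d (g • o) ((g * t) • o)

omit [Fintype V] [DecidableEq V] in
theorem psi_mul_le {d : V → V → ℝ} (htri : ∀ u v w, d u w ≤ d u v + d v w) (o : V) (s t : G) :
    psi d o (s * t) ≤ psi d o s + psi d o t := by
  unfold psi
  have h1 : ∑ g : G, d (g • o) ((g * t) • o) = ∑ g : G, d ((g * s) • o) ((g * s * t) • o) :=
    (Equiv.sum_comp (Equiv.mulRight s) (fun g : G => d (g • o) ((g * t) • o))).symm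
  rw [h1, ← Finset.sum_add_distrib]
  refine Finset.sum_le_sum fun g _ => ?_
  rw [← mul_assoc]
  exact htri _ _ _

omit [Fintype V] [DecidableEq V] in
theorem psi_pow_le {d : V → V → ℝ} (htri : ∀ u v w, d u w ≤ d u v + d v w) (h0 : ∀ u, d u u = 0)
    (o : V) (t : G) (N : ℕ) : psi d o (t ^ N) ≤ N * psi d o t := by
  induction N with
  | zero => simp [psi, h0]
  | succ N ih =>
    rw [pow_succ]
    refine (psi_mul_le htri o _ _).trans ?_
    push_cast
    linarith

variable {E : ℕ}

/-- the positive definite function of `x` -/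
noncomputable def kx (x : V → EuclideanSpace ℝ (Fin E)) (o : V) (g : G) : ℂ :=
  ((∑ a : G, ∑ i, x (a • o) i * x ((a * g) • o) i : ℝ) : ℂ)

omit [Fintype V] [DecidableEq V] in
theorem kx_PD (x : V → EuclideanSpace ℝ (Fin E)) (o : V) : PD (kx (G := G) x o) := by
  refine ⟨G × Fin E, inferInstance, fun g p => ((x ((p.1 * g) • o) p.2 : ℝ) : ℂ), fun g h => ?_⟩
  rw [kx, ← Equiv.sum_comp (Equiv.mulRight g), Fintype.sum_prod_type]
  push_cast
  refine Finset.sum_congr rfl fun a _ => Finset.sum_congr rfl fun i _ => ?_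
  simp only [Complex.conj_ofReal, Equiv.coe_mulRight]
  have : a * g * (g⁻¹ * h) = a * h := by group
  rw [this]

omit [Fintype V] [DecidableEq V] in
theorem psi_eq {d : V → V → ℝ} {x : V → EuclideanSpace ℝ (Fin E)}
    (hd : ∀ u v, d u v = ‖x u - x v‖ ^ 2) (o : V) (t : G) :
    psi d o t = 2 * ((kx (G := G) x o 1).re - (kx (G := G) x o t).re) := by
  have hre : ∀ g : G, (kx (G := G) x o g).re = ∑ a : G, ∑ i, x (a • o) i * x ((a * g) • o) i := by
    intro g
    rw [kx, Complex.ofReal_re]
  have h1 : ∑ a : G, ∑ i, x ((a * t) • o) i * x ((a * t) • o) i =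
      ∑ a : G, ∑ i, x (a • o) i * x (a • o) i :=
    Equiv.sum_comp (Equiv.mulRight t) (fun a : G => ∑ i, x (a • o) i * x (a • o) i)
  rw [hre, hre]
  simp only [mul_one]
  have h2 : ∀ a : G, d (a • o) ((a * t) • o) =
      ∑ i, x (a • o) i * x (a • o) i + ∑ i, x ((a * t) • o) i * x ((a * t) • o) i
        - 2 * ∑ i, x (a • o) i * x ((a * t) • o) i := by
    intro a
    rw [hd, EuclideanSpace.norm_sq_eq, Finset.mul_sum, ← Finset.sum_add_distrib,
      ← Finset.sum_sub_distrib]
    refine Finset.sum_congr rfl fun i _ => ?_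
    rw [Real.norm_eq_abs, sq_abs, PiLp.sub_apply]
    ring
  rw [psi, Finset.sum_congr rfl fun a _ => h2 a, Finset.sum_sub_distrib, Finset.sum_add_distrib,
    h1, ← Finset.mul_sum]
  ring

end Vale.Agent.P318.H612
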