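import Mathlib

/-! A dyadic inequality for roots of unity. -/

namespace Vale.Agent.P318.H612

open Finset

theorem norm_one_sub_sq {z : ℂ} (hz : ‖z‖ = 1) : ‖1 - z‖ ^ 2 = 2 * (1 - z.re) := by
  have h1 := Complex.sq_norm z
  rw [hz, Complex.normSq_apply] at h1
  rw [Complex.sq_norm, Complex.normSq_apply]
  simp only [Complex.sub_re, Complex.one_re, Complex.sub_im, Complex.one_im]
  nlinarith

theorem dyadic {z : ℂ} {m : ℕ} (hm : 0 < m) (hz : z ^ m = 1) :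
    ‖1 - z‖ ≤ Real.pi / 2 * ∑ j ∈ range (Nat.log 2 m), (1 / 2 : ℝ) ^ j * ‖1 - z ^ 2 ^ j‖ ^ 2 := by
  have hsum0 : 0 ≤ Real.pi / 2 * ∑ j ∈ range (Nat.log 2 m), (1 / 2 : ℝ) ^ j * ‖1 - z ^ 2 ^ j‖ ^ 2 := by
    positivity
  by_cases hz1 : z = 1
  · rw [hz1] at hsum0 ⊢
    simp
  have hn : ‖z‖ = 1 := Complex.norm_eq_one_of_pow_eq_one hz hm.ne'
  set θ := z.arg with hθ
  have hzθ : z = Complex.exp (Complex.I * θ) := by
    have := Complex.norm_mul_exp_arg_mul_I z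
    rw [hn] at this
    rw [← this]
    simp [hθ, mul_comm]
  have hθ0 : θ ≠ 0 := by
    intro h
    apply hz1
    rw [hzθ, h]; simp
  have habs : 0 < |θ| := abs_pos.2 hθ0
  have hθpi : |θ| ≤ Real.pi := Complex.abs_arg_le_pi z
  have hpow : ∀ N : ℕ, z ^ N = Complex.exp (Complex.I * ((N * θ : ℝ) : ℂ)) := by
    intro N
    rw [hzθ, ← Complex.exp_nat_mul]
    congr 1
    push_cast; ring
  -- `m |θ| ≥ 2 π`
  have hmθ : 2 * Real.pi ≤ m * |θ| := by
    have h1 := hpow m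
    rw [hz] at h1
    obtain ⟨k, hk⟩ := Complex.exp_eq_one_iff.1 h1.symm
    have h2 : ((m * θ : ℝ) : ℂ) = ((k * (2 * Real.pi) : ℝ) : ℂ) := by
      have h3 : Complex.I * ((m * θ : ℝ) : ℂ) = Complex.I * ((k * (2 * Real.pi) : ℝ) : ℂ) := by
        rw [hk]; push_cast; ring
      exact mul_left_cancel₀ Complex.I_ne_zero h3
    have h3 : m * θ = k * (2 * Real.pi) := by exact_mod_cast h2
    have h4 : k ≠ 0 := by
      rintro rfl
      simp only [Int.cast_zero, zero_mul] at h3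
      rcases mul_eq_zero.1 h3 with h | h
      · have : (m : ℝ) ≠ 0 := by exact_mod_cast hm.ne'
        exact this h
      · exact hθ0 h
    have h5 : (1 : ℝ) ≤ |(k : ℝ)| := by
      rw [← Int.cast_abs]
      exact_mod_cast Int.one_le_abs h4
    have h6 : (m : ℝ) * |θ| = |(k : ℝ)| * (2 * Real.pi) := by
      have := congrArg abs h3
      rw [abs_mul, abs_mul, Nat.abs_cast, abs_of_pos (by positivity : 0 < 2 * Real.pi)] at this
      exact this
    rw [h6]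
    have := Real.pi_pos
    nlinarith
  -- choose the scale
  have hex : ∃ j : ℕ, Real.pi / 2 < 2 ^ j * |θ| := by
    obtain ⟨j, hj⟩ := pow_unbounded_of_one_lt (Real.pi / 2 / |θ|) (one_lt_two : (1 : ℝ) < 2)
    exact ⟨j, (div_lt_iff₀ habs).1 hj⟩
  classical
  set j := Nat.find hex with hj
  have hj1 : Real.pi / 2 < 2 ^ j * |θ| := Nat.find_spec hex
  have hj2 : 2 ^ j * |θ| ≤ Real.pi := by
    rcases Nat.eq_zero_or_pos j with h0 | h0
    · rw [h0]; simpa using hθpi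
    · have := Nat.find_min hex (m := j - 1) (by omega)
      push Not at this
      have e : (2 : ℝ) ^ j = 2 * 2 ^ (j - 1) := by
        rw [← pow_succ']; congr 1; omega
      rw [e]; nlinarith
  have hjm : j < Nat.log 2 m := by
    have h1 : (2 : ℝ) ^ (j + 1) ≤ m := by
      have : (2 : ℝ) ^ (j + 1) * |θ| ≤ m * |θ| := by
        rw [pow_succ]; nlinarith
      exact le_of_mul_le_mul_right this habs
    have h2 : 2 ^ (j + 1) ≤ m := by exact_mod_cast h1
    have h3 := Nat.le_log_of_pow_le (by norm_num : 1 < 2) h2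
    omega
  have hcos : Real.cos (2 ^ j * θ) ≤ 0 := by
    rw [← Real.cos_abs, abs_mul, abs_of_pos (by positivity : (0 : ℝ) < 2 ^ j)]
    exact Real.cos_nonpos_of_pi_div_two_le_of_le hj1.le (by linarith [Real.pi_pos])
  have hterm : 2 ≤ ‖1 - z ^ 2 ^ j‖ ^ 2 := by
    have hn' : ‖z ^ 2 ^ j‖ = 1 := by rw [norm_pow, hn, one_pow]
    rw [norm_one_sub_sq hn', hpow]
    have : (Complex.exp (Complex.I * (((2 ^ j : ℕ) * θ : ℝ) : ℂ))).re = Real.cos (2 ^ j * θ) := by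
      rw [mul_comm, Complex.exp_ofReal_mul_I_re]
      push_cast; rfl
    rw [this]; linarith
  have hlhs : ‖1 - z‖ ≤ |θ| := by
    rw [norm_sub_rev, hzθ]
    exact Real.norm_exp_I_mul_ofReal_sub_one_le
  have hsingle : (1 / 2 : ℝ) ^ j * ‖1 - z ^ 2 ^ j‖ ^ 2 ≤
      ∑ j ∈ range (Nat.log 2 m), (1 / 2 : ℝ) ^ j * ‖1 - z ^ 2 ^ j‖ ^ 2 :=
    Finset.single_le_sum (f := fun j => (1 / 2 : ℝ) ^ j * ‖1 - z ^ 2 ^ j‖ ^ 2)
      (fun i _ => by positivity) (mem_range.2 hjm)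
  calc ‖1 - z‖ ≤ |θ| := hlhs
    _ ≤ Real.pi / 2 * ((1 / 2 : ℝ) ^ j * 2) := by
        have e : (1 / 2 : ℝ) ^ j * 2 ^ j = 1 := by rw [← mul_pow]; norm_num
        have e2 : |θ| = (1 / 2 : ℝ) ^ j * (2 ^ j * |θ|) := by rw [← mul_assoc, e, one_mul]
        rw [e2]
        have : (1 / 2 : ℝ) ^ j * (2 ^ j * |θ|) ≤ (1 / 2 : ℝ) ^ j * Real.pi :=
          mul_le_mul_of_nonneg_left hj2 (by positivity)
        linarith
    _ ≤ Real.pi / 2 * ((1 / 2 : ℝ) ^ j * ‖1 - z ^ 2 ^ j‖ ^ 2) := by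
        have := Real.pi_pos
        gcongr
    _ ≤ _ := by
        have := Real.pi_pos
        gcongr

end Vale.Agent.P318.H612
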