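import Mathlib
import Vale.Agent.P318.H612.Central
import Vale.Agent.P318.H612.Trig

/-! Positive definite functions on a finite abelian group as mixtures of characters. -/

namespace Vale.Agent.P318.H612

open Finset ComplexConjugate

theorem bochner {B : Type} [CommGroup B] [Fintype B] {k : B → ℂ} (hk : PD k) :
    ∃ (L : Type) (_ : Fintype L) (μ : L → ℝ) (χ : L → B → ℂ), (∀ l, 0 ≤ μ l) ∧
      (∀ l b b', χ l (b * b') = χ l b * χ l b') ∧ (∀ l b, ‖χ l b‖ = 1) ∧
      (∀ b, (k 1).re - (k b).re = ∑ l, μ l * (1 - (χ l b).re)) := by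
  let e : Additive B → B := fun a => Additive.toMul a
  have he : ∀ a b, e (a + b) = e a * e b := fun a b => rfl
  have hc : ∀ a g, e a * g = g * e a := fun a g => mul_comm _ _
  have hP := fun ψ : AddChar (Additive B) ℂ => (cpt_PD he hc hk ψ).one_eq
  refine ⟨AddChar (Additive B) ℂ, inferInstance, fun ψ => (cpt e k ψ 1).re,
    fun ψ b => ψ (Additive.ofMul b), fun ψ => (hP ψ).2, ?_, ?_, ?_⟩
  · intro ψ b b'
    exact AddChar.map_add_eq_mul ψ (Additive.ofMul b) (Additive.ofMul b')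
  · intro ψ b
    exact AddChar.norm_apply ψ _
  · intro b
    have h1 : ∀ ψ : AddChar (Additive B) ℂ,
        cpt e k ψ b = ψ (Additive.ofMul b) * ((cpt e k ψ 1).re : ℂ) := by
      intro ψ
      have := cpt_mul he k ψ 1 (Additive.ofMul b)
      rw [one_mul] at this
      rw [← (hP ψ).1]
      exact this
    rw [← sum_cpt he k 1, ← sum_cpt he k b, Complex.re_sum, Complex.re_sum,
      ← Finset.sum_sub_distrib]
    refine Finset.sum_congr rfl fun ψ _ => ?_
    rw [h1 ψ, Complex.re_mul_ofReal]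
    ring

/-- the first-moment bound -/
theorem first_moment {B : Type} [CommGroup B] {m : ℕ} (hm : 0 < m)
    (hB : ∀ b : B, b ^ m = 1) {L : Type} [Fintype L] {μ : L → ℝ} {χ : L → B → ℂ}
    (hμ : ∀ l, 0 ≤ μ l) (hχ : ∀ l b b', χ l (b * b') = χ l b * χ l b') (hn : ∀ l b, ‖χ l b‖ = 1)
    (b : B) :
    ∑ l, μ l * ‖1 - χ l b‖ ≤ Real.pi * ∑ j ∈ range (Nat.log 2 m), (1 / 2 : ℝ) ^ j *
      ∑ l, μ l * (1 - (χ l (b ^ 2 ^ j)).re) := by
  have hone : ∀ l, χ l 1 = 1 := by
    intro l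
    have h1 := hχ l 1 1
    rw [mul_one] at h1
    have h2 : χ l 1 ≠ 0 := by
      intro h0
      have := hn l 1
      rw [h0, norm_zero] at this
      exact zero_ne_one this
    exact (left_eq_mul₀ h2).1 h1
  have hpow : ∀ l (b : B) (N : ℕ), χ l (b ^ N) = χ l b ^ N := by
    intro l b N
    induction N with
    | zero => simp [hone]
    | succ N ih => rw [pow_succ, hχ, ih, pow_succ]
  have h1 : ∀ l, μ l * ‖1 - χ l b‖ ≤ Real.pi * ∑ j ∈ range (Nat.log 2 m), (1 / 2 : ℝ) ^ j *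
      (μ l * (1 - (χ l (b ^ 2 ^ j)).re)) := by
    intro l
    have h2 : χ l b ^ m = 1 := by rw [← hpow, hB, hone]
    have h3 := dyadic hm h2
    have h4 : ∀ j, ‖1 - χ l b ^ 2 ^ j‖ ^ 2 = 2 * (1 - (χ l (b ^ 2 ^ j)).re) := by
      intro j
      rw [← hpow]
      exact norm_one_sub_sq (hn l _)
    simp only [h4] at h3
    calc μ l * ‖1 - χ l b‖ ≤ μ l * (Real.pi / 2 * ∑ j ∈ range (Nat.log 2 m), (1 / 2 : ℝ) ^ j *
          (2 * (1 - (χ l (b ^ 2 ^ j)).re))) := mul_le_mul_of_nonneg_left h3 (hμ l)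
      _ = _ := by
        rw [Finset.mul_sum, Finset.mul_sum, Finset.mul_sum]
        refine Finset.sum_congr rfl fun j _ => ?_
        ring
  refine (Finset.sum_le_sum fun l _ => h1 l).trans (le_of_eq ?_)
  rw [← Finset.mul_sum, Finset.sum_comm]
  congr 1
  refine Finset.sum_congr rfl fun j _ => ?_
  rw [Finset.mul_sum]

end Vale.Agent.P318.H612
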