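import Mathlib
import Vale.Agent.P318.H612.Coarea
import Vale.Agent.P318.H612.Round
import Vale.Agent.P318.H612.Orbit

/-! The rounding theorem for capacities with a transitive nilpotent group of symmetries. -/

namespace Vale.Agent.P318.H612

open Finset ComplexConjugate

theorem abs_add_abs_le (z : ℂ) : |z.re| + |z.im| ≤ Real.sqrt 2 * ‖z‖ := by
  have h1 : ‖z‖ ^ 2 = |z.re| ^ 2 + |z.im| ^ 2 := by
    rw [Complex.sq_norm, Complex.normSq_apply, sq_abs, sq_abs]; ring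
  have h2 : (Real.sqrt 2) ^ 2 = 2 := Real.sq_sqrt (by norm_num)
  have h3 : (|z.re| + |z.im|) ^ 2 ≤ (Real.sqrt 2 * ‖z‖) ^ 2 := by
    rw [mul_pow, h2, h1]
    nlinarith [sq_nonneg (|z.re| - |z.im|)]
  exact le_of_sq_le_sq h3 (by positivity)

variable {V : Type} [Fintype V] [DecidableEq V] {G : Type} [Group G] [Fintype G] [MulAction G V]

/-- coarea for complex valued functions -/
theorem coarea_complex {c : V → V → ℝ} (hc0 : ∀ u v, 0 ≤ c u v) {a : ℝ} (ha : 0 ≤ a)
    (hcut : ∀ S : Finset V, a * ∑ u, ∑ v, |(if u ∈ S then (1:ℝ) else 0) - (if v ∈ S then 1 else 0)| ≤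
      ∑ u, ∑ v, c u v * |(if u ∈ S then (1:ℝ) else 0) - (if v ∈ S then 1 else 0)|)
    (f : V → ℂ) :
    a * ∑ u, ∑ v, ‖f u - f v‖ ≤ Real.sqrt 2 * ∑ u, ∑ v, c u v * ‖f u - f v‖ := by
  have h1 := coarea c a hcut (fun v => (f v).re)
  have h2 := coarea c a hcut (fun v => (f v).im)
  calc a * ∑ u, ∑ v, ‖f u - f v‖
      ≤ a * ∑ u, ∑ v, (|(f u).re - (f v).re| + |(f u).im - (f v).im|) := by
        refine mul_le_mul_of_nonneg_left ?_ ha
        refine Finset.sum_le_sum fun u _ => Finset.sum_le_sum fun v _ => ?_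
        exact Complex.norm_le_abs_re_add_abs_im _
    _ = a * ∑ u, ∑ v, |(f u).re - (f v).re| + a * ∑ u, ∑ v, |(f u).im - (f v).im| := by
        simp only [Finset.sum_add_distrib]; ring
    _ ≤ ∑ u, ∑ v, c u v * |(f u).re - (f v).re| + ∑ u, ∑ v, c u v * |(f u).im - (f v).im| :=
        add_le_add h1 h2
    _ = ∑ u, ∑ v, c u v * (|(f u).re - (f v).re| + |(f u).im - (f v).im|) := by
        simp only [← Finset.sum_add_distrib, mul_add]
    _ ≤ ∑ u, ∑ v, c u v * (Real.sqrt 2 * ‖f u - f v‖) := by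
        refine Finset.sum_le_sum fun u _ => Finset.sum_le_sum fun v _ => ?_
        exact mul_le_mul_of_nonneg_left (abs_add_abs_le (f u - f v)) (hc0 u v)
    _ = _ := by
        rw [Finset.mul_sum]
        refine Finset.sum_congr rfl fun u _ => ?_
        rw [Finset.mul_sum]
        refine Finset.sum_congr rfl fun v _ => ?_
        ring

/-- one character -/
theorem char_cut [MulAction.IsPretransitive G V] {c : V → V → ℝ} (hc0 : ∀ u v, 0 ≤ c u v)
    (hinv : ∀ (g : G) u v, c (g • u) (g • v) = c u v) {a : ℝ} (ha : 0 ≤ a)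
    (hcut : ∀ S : Finset V, a * ∑ u, ∑ v, |(if u ∈ S then (1:ℝ) else 0) - (if v ∈ S then 1 else 0)| ≤
      ∑ u, ∑ v, c u v * |(if u ∈ S then (1:ℝ) else 0) - (if v ∈ S then 1 else 0)|)
    (o : V) {χ : G → ℂ} (hχ : ∀ g h, χ (g * h) = χ g * χ h) (hn : ∀ g, ‖χ g‖ = 1)
    (hst : ∀ h : G, h • o = o → χ h = 1) :
    a * ∑ t : G, (1 - (χ t).re) ≤ Real.sqrt 2 * ∑ t : G, c o (t • o) * ‖1 - χ t‖ := by
  obtain ⟨N, hN0, hN⟩ := orbit_sum (G := G) o
  have hsec : ∀ v : V, ∃ g : G, g • o = v := fun v => MulAction.exists_smul_eq G o v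
  choose s hs using hsec
  set f : V → ℂ := fun v => χ (s v) with hf
  have hfg : ∀ g : G, f (g • o) = χ g := by
    intro g
    have h1 : (g⁻¹ * s (g • o)) • o = o := by
      rw [mul_smul, hs, inv_smul_smul]
    have h2 := hχ g (g⁻¹ * s (g • o))
    rw [mul_inv_cancel_left, hst _ h1, mul_one] at h2
    exact h2
  have hT : ∀ t : G, ∑ g : G, ‖f (g • o) - f ((g * t) • o)‖ = (Fintype.card G : ℝ) * ‖1 - χ t‖ := by
    intro t
    have : ∀ g : G, ‖f (g • o) - f ((g * t) • o)‖ = ‖1 - χ t‖ := by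
      intro g
      rw [hfg, hfg, hχ]
      have : χ g - χ g * χ t = χ g * (1 - χ t) := by ring
      rw [this, norm_mul, hn, one_mul]
    rw [Finset.sum_congr rfl fun g _ => this g, Finset.sum_const, Finset.card_univ, nsmul_eq_mul]
  have e1 := double_sum hN hinv (fun u v => ‖f u - f v‖)
  have e2 := double_sum hN (c := fun _ _ => (1 : ℝ)) (fun _ _ _ => rfl) (fun u v => ‖f u - f v‖)
  simp only [hT, one_mul] at e1 e2
  have h0 := coarea_complex hc0 ha hcut f
  have hG0 : (0 : ℝ) < Fintype.card G := by exact_mod_cast Fintype.card_pos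
  have h3 : a * ∑ t : G, (Fintype.card G : ℝ) * ‖1 - χ t‖ ≤
      Real.sqrt 2 * ∑ t : G, c o (t • o) * ((Fintype.card G : ℝ) * ‖1 - χ t‖) := by
    rw [← e1, ← e2]
    have : 0 ≤ (N : ℝ) ^ 2 := by positivity
    nlinarith [mul_le_mul_of_nonneg_left h0 this]
  have h4 : a * ∑ t : G, ‖1 - χ t‖ ≤ Real.sqrt 2 * ∑ t : G, c o (t • o) * ‖1 - χ t‖ := by
    have e3 : ∑ t : G, (Fintype.card G : ℝ) * ‖1 - χ t‖ = (Fintype.card G : ℝ) * ∑ t : G, ‖1 - χ t‖ := by
      rw [Finset.mul_sum]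
    have e4 : ∑ t : G, c o (t • o) * ((Fintype.card G : ℝ) * ‖1 - χ t‖) =
        (Fintype.card G : ℝ) * ∑ t : G, c o (t • o) * ‖1 - χ t‖ := by
      rw [Finset.mul_sum]
      exact Finset.sum_congr rfl fun t _ => by ring
    rw [e3, e4] at h3
    have h5 : (Fintype.card G : ℝ) * (a * ∑ t : G, ‖1 - χ t‖) ≤
        (Fintype.card G : ℝ) * (Real.sqrt 2 * ∑ t : G, c o (t • o) * ‖1 - χ t‖) := by
      linarith
    exact le_of_mul_le_mul_left h5 hG0
  refine le_trans (mul_le_mul_of_nonneg_left (Finset.sum_le_sum fun t _ => ?_) ha) h4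
  have h5 := norm_one_sub_sq (hn t)
  have h6 : ‖1 - χ t‖ ≤ 2 := by
    have := norm_sub_le (1 : ℂ) (χ t)
    rw [hn, norm_one] at this
    linarith
  nlinarith [norm_nonneg (1 - χ t)]

theorem main_abs [MulAction.IsPretransitive G V] {κ : ℕ}
    (hG : (⊤ : Subgroup G).lowerCentralSeries (κ + 1) = ⊥) {m : ℕ} (hm : 0 < m)
    (hexp : ∀ g : Abelianization G, g ^ m = 1)
    {c : V → V → ℝ} (hc0 : ∀ u v, 0 ≤ c u v)
    (hinv : ∀ (g : G) u v, c (g • u) (g • v) = c u v) {a : ℝ} (ha : 0 ≤ a)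
    (hcut : ∀ S : Finset V, a * ∑ u, ∑ v, |(if u ∈ S then (1:ℝ) else 0) - (if v ∈ S then 1 else 0)| ≤
      ∑ u, ∑ v, c u v * |(if u ∈ S then (1:ℝ) else 0) - (if v ∈ S then 1 else 0)|)
    (o : V) {d : V → V → ℝ} {E : ℕ} {x : V → EuclideanSpace ℝ (Fin E)}
    (hd : ∀ u v, d u v = ‖x u - x v‖ ^ 2) (htri : ∀ u v w, d u w ≤ d u v + d v w) :
    a * ∑ u, ∑ v, d u v ≤
      Real.sqrt 2 * Real.pi * 4 ^ κ * (Nat.log 2 m : ℝ) * ∑ u, ∑ v, c u v * d u v := by
  have hd0 : ∀ u, d u u = 0 := fun u => by rw [hd]; simp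
  set k := kx (G := G) x o with hk
  have hkPD : PD k := kx_PD x o
  have hpsi : ∀ t : G, psi d o t = 2 * ((k 1).re - (k t).re) := psi_eq hd o
  have hpow : ∀ (t : G) (N : ℕ), (k 1).re - (k (t ^ N)).re ≤ N * ((k 1).re - (k t).re) := by
    intro t N
    have := psi_pow_le htri hd0 o t N
    rw [hpsi, hpsi] at this
    linarith
  obtain ⟨B, _, _, p, hp, k', hk', hi, hii⟩ := nilp_descend κ G hG hkPD
  have hB : ∀ b : B, b ^ m = 1 := by
    intro b
    obtain ⟨g, rfl⟩ := hp b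
    have h1 : Abelianization.lift p (Abelianization.of g) = p g := Abelianization.lift_apply_of p g
    rw [← h1, ← map_pow, hexp, map_one]
  obtain ⟨L, _, μ, χ, hμ, hχ, hn, hrep⟩ := bochner hk'
  have hrep0 : ∀ l b, 0 ≤ μ l * (1 - (χ l b).re) := by
    intro l b
    refine mul_nonneg (hμ l) (sub_nonneg.2 ?_)
    have := Complex.re_le_norm (χ l b)
    rwa [hn] at this
  -- the stabiliser
  have hst : ∀ l, μ l ≠ 0 → ∀ h : G, h • o = o → χ l (p h) = 1 := by
    intro l hl h hh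
    have h1 : psi d o h = 0 := by
      unfold psi
      refine Finset.sum_eq_zero fun g _ => ?_
      rw [mul_smul, hh, hd0]
    have h2 := hi h
    have h3 : (k 1).re - (k h).re = 0 := by
      rw [hpsi] at h1; linarith
    rw [h3, mul_zero, hrep] at h2
    have h4 : ∑ l, μ l * (1 - (χ l (p h)).re) = 0 :=
      le_antisymm h2 (Finset.sum_nonneg fun l _ => hrep0 l _)
    have h5 := (Finset.sum_eq_zero_iff_of_nonneg (fun l _ => hrep0 l _)).1 h4 l (mem_univ _)
    rcases mul_eq_zero.1 h5 with h6 | h6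
    · exact absurd h6 hl
    · have h7 := norm_one_sub_sq (hn l (p h))
      rw [h6, mul_zero] at h7
      have h8 : ‖1 - χ l (p h)‖ = 0 := by
        exact pow_eq_zero_iff (two_ne_zero) |>.1 h7
      rw [norm_eq_zero, sub_eq_zero] at h8
      exact h8.symm
  -- all characters together
  have hall : a * ∑ t : G, ((k' 1).re - (k' (p t)).re) ≤
      Real.sqrt 2 * ∑ t : G, c o (t • o) * ∑ l, μ l * ‖1 - χ l (p t)‖ := by
    have h1 : ∀ l, μ l * (a * ∑ t : G, (1 - (χ l (p t)).re)) ≤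
        μ l * (Real.sqrt 2 * ∑ t : G, c o (t • o) * ‖1 - χ l (p t)‖) := by
      intro l
      by_cases hl : μ l = 0
      · rw [hl, zero_mul, zero_mul]
      · refine mul_le_mul_of_nonneg_left ?_ (hμ l)
        exact char_cut hc0 hinv ha hcut o (χ := fun g => χ l (p g))
          (fun g h => by rw [map_mul, hχ]) (fun g => hn l _) (hst l hl)
    have h2 := Finset.sum_le_sum fun l (_ : l ∈ (univ : Finset L)) => h1 l
    calc a * ∑ t : G, ((k' 1).re - (k' (p t)).re)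
        = ∑ l, μ l * (a * ∑ t : G, (1 - (χ l (p t)).re)) := by
          simp only [hrep]
          rw [Finset.sum_comm, Finset.mul_sum]
          refine Finset.sum_congr rfl fun l _ => ?_
          rw [← Finset.mul_sum]; ring
      _ ≤ _ := h2
      _ = _ := by
          simp only [Finset.mul_sum]
          rw [Finset.sum_comm]
          refine Finset.sum_congr rfl fun t _ => Finset.sum_congr rfl fun l _ => ?_
          ring
  -- the first moment
  have hfm : ∀ t : G, ∑ l, μ l * ‖1 - χ l (p t)‖ ≤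
      Real.pi * (2 ^ κ * (Nat.log 2 m : ℝ)) * ((k 1).re - (k t).re) := by
    intro t
    refine (first_moment hm hB hμ hχ hn (p t)).trans ?_
    rw [mul_assoc Real.pi]
    refine mul_le_mul_of_nonneg_left ?_ Real.pi_pos.le
    calc ∑ j ∈ range (Nat.log 2 m), (1 / 2 : ℝ) ^ j * ∑ l, μ l * (1 - (χ l (p t ^ 2 ^ j)).re)
        ≤ ∑ j ∈ range (Nat.log 2 m), (2 ^ κ * ((k 1).re - (k t).re)) := by
          refine Finset.sum_le_sum fun j _ => ?_
          rw [← hrep, ← map_pow]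
          have h1 := hi (t ^ 2 ^ j)
          have h2 := hpow t (2 ^ j)
          have e : (1 / 2 : ℝ) ^ j * ((2 ^ j : ℕ) : ℝ) = 1 := by
            push_cast; rw [← mul_pow]; norm_num
          calc (1 / 2 : ℝ) ^ j * ((k' 1).re - (k' (p (t ^ 2 ^ j))).re)
              ≤ (1 / 2 : ℝ) ^ j * (2 ^ κ * (((2 ^ j : ℕ) : ℝ) * ((k 1).re - (k t).re))) := by
                gcongr
                exact h1.trans (by gcongr)
            _ = ((1 / 2 : ℝ) ^ j * ((2 ^ j : ℕ) : ℝ)) * (2 ^ κ * ((k 1).re - (k t).re)) := by ring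
            _ = _ := by rw [e, one_mul]
      _ = _ := by
          rw [Finset.sum_const, Finset.card_range, nsmul_eq_mul]; ring
  obtain ⟨N, hN0, hN⟩ := orbit_sum (G := G) o
  have e1 := double_sum hN hinv d
  have e2 := double_sum hN (c := fun _ _ => (1 : ℝ)) (fun _ _ _ => rfl) d
  have epsi : ∀ t : G, ∑ g : G, d (g • o) ((g * t) • o) = 2 * ((k 1).re - (k t).re) := hpsi
  simp only [epsi, one_mul] at e1 e2
  have hfin : a * ∑ t : G, ((k 1).re - (k t).re) ≤
      Real.sqrt 2 * Real.pi * 4 ^ κ * (Nat.log 2 m : ℝ) *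
        ∑ t : G, c o (t • o) * ((k 1).re - (k t).re) := by
    calc a * ∑ t : G, ((k 1).re - (k t).re)
        ≤ a * (2 ^ κ * ∑ t : G, ((k' 1).re - (k' (p t)).re)) := mul_le_mul_of_nonneg_left hii ha
      _ = 2 ^ κ * (a * ∑ t : G, ((k' 1).re - (k' (p t)).re)) := by ring
      _ ≤ 2 ^ κ * (Real.sqrt 2 * ∑ t : G, c o (t • o) * ∑ l, μ l * ‖1 - χ l (p t)‖) := by gcongr
      _ ≤ 2 ^ κ * (Real.sqrt 2 * ∑ t : G, c o (t • o) *
            (Real.pi * (2 ^ κ * (Nat.log 2 m : ℝ)) * ((k 1).re - (k t).re))) := by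
          gcongr with t _
          · exact hc0 _ _
          · exact hfm t
      _ = _ := by
          have : ∑ t : G, c o (t • o) * (Real.pi * (2 ^ κ * (Nat.log 2 m : ℝ)) * ((k 1).re - (k t).re))
              = (Real.pi * (2 ^ κ * (Nat.log 2 m : ℝ))) * ∑ t : G, c o (t • o) * ((k 1).re - (k t).re) := by
            rw [Finset.mul_sum]
            exact Finset.sum_congr rfl fun t _ => by ring
          rw [this]
          have e4 : (4 : ℝ) ^ κ = 2 ^ κ * 2 ^ κ := by rw [← mul_pow]; norm_num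
          rw [e4]; ring
  have e3 : ∑ t : G, 2 * ((k 1).re - (k t).re) = 2 * ∑ t : G, ((k 1).re - (k t).re) := by
    rw [Finset.mul_sum]
  have e4 : ∑ t : G, c o (t • o) * (2 * ((k 1).re - (k t).re)) =
      2 * ∑ t : G, c o (t • o) * ((k 1).re - (k t).re) := by
    rw [Finset.mul_sum]
    exact Finset.sum_congr rfl fun t _ => by ring
  rw [e4] at e1
  rw [e3] at e2
  have hNpos : (0 : ℝ) < (N : ℝ) ^ 2 := by positivity
  have h9 : (N : ℝ) ^ 2 * (a * ∑ u, ∑ v, d u v) ≤ (N : ℝ) ^ 2 *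
      (Real.sqrt 2 * Real.pi * 4 ^ κ * (Nat.log 2 m : ℝ) * ∑ u, ∑ v, c u v * d u v) := by
    calc (N : ℝ) ^ 2 * (a * ∑ u, ∑ v, d u v) = a * ((N : ℝ) ^ 2 * ∑ u, ∑ v, d u v) := by ring
      _ = 2 * (a * ∑ t : G, ((k 1).re - (k t).re)) := by rw [e2]; ring
      _ ≤ 2 * (Real.sqrt 2 * Real.pi * 4 ^ κ * (Nat.log 2 m : ℝ) *
        ∑ t : G, c o (t • o) * ((k 1).re - (k t).re)) := by gcongr
      _ = Real.sqrt 2 * Real.pi * 4 ^ κ * (Nat.log 2 m : ℝ) *
        ((N : ℝ) ^ 2 * ∑ u, ∑ v, c u v * d u v) := by rw [e1]; ring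
      _ = _ := by ring
  exact le_of_mul_le_mul_left h9 hNpos

end Vale.Agent.P318.H612
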