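import Mathlib
import Vale.Agent.P318.H612.Main
import Vale.Agent.P318.H612.EndGame2

/-! The rounding theorem with the factor `log log n` in place of the exponent. -/

namespace Vale.Agent.P318.H612

open Finset ComplexConjugate

variable {V : Type} [Fintype V] [DecidableEq V] {G : Type} [Group G] [Fintype G] [MulAction G V]

theorem sum_char_zero {χ : G → ℂ} (hχ : ∀ g h, χ (g * h) = χ g * χ h) {b : G} (hb : χ b ≠ 1) :
    ∑ g, χ g = 0 := by
  have h1 : ∑ g, χ (b * g) = ∑ g, χ g := Equiv.sum_comp (Equiv.mulLeft b) χ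
  have h2 : ∑ g, χ (b * g) = χ b * ∑ g, χ g := by
    rw [Finset.mul_sum]
    exact Finset.sum_congr rfl fun g _ => hχ b g
  rw [h2] at h1
  have h3 : (χ b - 1) * ∑ g, χ g = 0 := by rw [sub_mul, h1]; ring
  rcases mul_eq_zero.1 h3 with h | h
  · exact absurd (sub_eq_zero.1 h) hb
  · exact h

theorem main_abs2 [MulAction.IsPretransitive G V] {κ : ℕ}
    (hG : (⊤ : Subgroup G).lowerCentralSeries (κ + 1) = ⊥)
    {c : V → V → ℝ} (hc0 : ∀ u v, 0 ≤ c u v)
    (hinv : ∀ (g : G) u v, c (g • u) (g • v) = c u v) {a : ℝ} (ha : 0 ≤ a)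
    (hcut : ∀ S : Finset V, a * ∑ u, ∑ v, |(if u ∈ S then (1:ℝ) else 0) - (if v ∈ S then 1 else 0)| ≤
      ∑ u, ∑ v, c u v * |(if u ∈ S then (1:ℝ) else 0) - (if v ∈ S then 1 else 0)|)
    (o : V) {s : ℕ}
    (hs : Fintype.card V < 2 ^ (s + 1) ∨ (univ.filter (fun v => c o v ≠ 0)).card ≤ s)
    {d : V → V → ℝ} {E : ℕ} {x : V → EuclideanSpace ℝ (Fin E)}
    (hd : ∀ u v, d u v = ‖x u - x v‖ ^ 2) (htri : ∀ u v w, d u w ≤ d u v + d v w) :
    a * ∑ u, ∑ v, d u v ≤
      Real.sqrt 2 * Real.pi * 4 ^ κ * (8 * (κ : ℝ) + 8 * (Nat.clog 2 s : ℝ) + 21) *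
        ∑ u, ∑ v, c u v * d u v := by
  classical
  have hd0 : ∀ u, d u u = 0 := fun u => by rw [hd]; simp
  set k := kx (G := G) x o with hk
  have hkPD : PD k := kx_PD x o
  have hpsi : ∀ t : G, psi d o t = 2 * ((k 1).re - (k t).re) := psi_eq hd o
  obtain ⟨B, _, _, p, hp, k', hk', hi, hii⟩ := nilp_descend κ G hG hkPD
  obtain ⟨L, _, μ, χ, hμ, hχ, hn, hrep⟩ := bochner hk'
  have hre1 : ∀ l b, 0 ≤ 1 - (χ l b).re := by
    intro l b
    refine sub_nonneg.2 ?_
    have := Complex.re_le_norm (χ l b)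
    rwa [hn] at this
  have hrep0 : ∀ l b, 0 ≤ μ l * (1 - (χ l b).re) := fun l b => mul_nonneg (hμ l) (hre1 l b)
  -- the stabiliser
  have hst : ∀ l, μ l ≠ 0 → ∀ h : G, h • o = o → χ l (p h) = 1 := by
    intro l hl h hh
    have h1 : psi d o h = 0 := by
      unfold psi
      refine Finset.sum_eq_zero fun g _ => ?_
      rw [mul_smul, hh, hd0]
    have h2 := hi h
    have h3 : (k 1).re - (k h).re = 0 := by
      rw [hpsi] at h1; linarith
    rw [h3, mul_zero, hrep] at h2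
    have h4 : ∑ l, μ l * (1 - (χ l (p h)).re) = 0 :=
      le_antisymm h2 (Finset.sum_nonneg fun l _ => hrep0 l _)
    have h5 := (Finset.sum_eq_zero_iff_of_nonneg (fun l _ => hrep0 l _)).1 h4 l (mem_univ _)
    rcases mul_eq_zero.1 h5 with h6 | h6
    · exact absurd h6 hl
    · have h7 := norm_one_sub_sq (hn l (p h))
      rw [h6, mul_zero] at h7
      have h8 : ‖1 - χ l (p h)‖ = 0 := by
        exact pow_eq_zero_iff (two_ne_zero) |>.1 h7
      rw [norm_eq_zero, sub_eq_zero] at h8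
      exact h8.symm
  obtain ⟨N, hN0, hN⟩ := orbit_sum (G := G) o
  have e1 := double_sum hN hinv d
  have e2 := double_sum hN (c := fun _ _ => (1 : ℝ)) (fun _ _ _ => rfl) d
  have epsi : ∀ t : G, ∑ g : G, d (g • o) ((g * t) • o) = 2 * ((k 1).re - (k t).re) := hpsi
  simp only [epsi, one_mul] at e1 e2
  have hG0 : (0 : ℝ) < Fintype.card G := by exact_mod_cast Fintype.card_pos
  set dev : G → ℝ := fun t => (k 1).re - (k t).re with hdev
  have hdev0 : ∀ t, 0 ≤ dev t := fun t => sub_nonneg.2 (hkPD.re_le t)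
  have hdevmul : ∀ g h, dev (g * h) ≤ dev g + dev h := by
    intro g h
    have := psi_mul_le htri o g h
    rw [hpsi, hpsi, hpsi] at this
    simp only [hdev]
    linarith
  set R : ℝ := Real.sqrt 2 * Real.pi * 4 ^ κ * (8 * (κ : ℝ) + 8 * (Nat.clog 2 s : ℝ) + 21) with hR
  have hR0 : 0 ≤ R := by have := Real.pi_pos; positivity
  suffices hfin : a * ∑ t : G, dev t ≤ R * ∑ t : G, c o (t • o) * dev t by
    have e3 : ∑ t : G, 2 * dev t = 2 * ∑ t : G, dev t := by rw [Finset.mul_sum]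
    have e4 : ∑ t : G, c o (t • o) * (2 * dev t) = 2 * ∑ t : G, c o (t • o) * dev t := by
      rw [Finset.mul_sum]
      exact Finset.sum_congr rfl fun t _ => by ring
    have e1' : (N : ℝ) ^ 2 * ∑ u, ∑ v, c u v * d u v = 2 * ∑ t : G, c o (t • o) * dev t := by
      rw [e1]; exact e4
    have e2' : (N : ℝ) ^ 2 * ∑ u, ∑ v, d u v = 2 * ∑ t : G, dev t := by
      rw [e2]; exact e3
    have hNpos : (0 : ℝ) < (N : ℝ) ^ 2 := by positivity
    have h9 : (N : ℝ) ^ 2 * (a * ∑ u, ∑ v, d u v) ≤ (N : ℝ) ^ 2 * (R * ∑ u, ∑ v, c u v * d u v) := by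
      calc (N : ℝ) ^ 2 * (a * ∑ u, ∑ v, d u v) = a * ((N : ℝ) ^ 2 * ∑ u, ∑ v, d u v) := by ring
        _ = 2 * (a * ∑ t : G, dev t) := by rw [e2']; ring
        _ ≤ 2 * (R * ∑ t : G, c o (t • o) * dev t) := by linarith
        _ = R * ((N : ℝ) ^ 2 * ∑ u, ∑ v, c u v * d u v) := by rw [e1']; ring
        _ = _ := by ring
    exact le_of_mul_le_mul_left h9 hNpos
  -- the total deviation
  set T : ℝ := ∑ t : G, dev t with hT
  have hT0 : 0 ≤ T := Finset.sum_nonneg fun t _ => hdev0 t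
  have hcdev : 0 ≤ ∑ t : G, c o (t • o) * dev t :=
    Finset.sum_nonneg fun t _ => mul_nonneg (hc0 _ _) (hdev0 t)
  rcases hT0.eq_or_lt with hT00 | hTpos
  · rw [← hT00, mul_zero]
    exact mul_nonneg hR0 hcdev
  set A : ℝ := T / Fintype.card G with hA
  have hA0 : 0 < A := div_pos hTpos hG0
  have hAT : A * Fintype.card G = T := by rw [hA]; field_simp
  set b : L → ℝ := fun l => if ∃ g, χ l (p g) ≠ 1 then μ l / A else 0 with hbdef
  have hb0 : ∀ l, 0 ≤ b l := by
    intro l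
    simp only [hbdef]
    split_ifs
    · exact div_nonneg (hμ l) hA0.le
    · exact le_rfl
  have hbpos : ∀ l, 0 < b l → μ l ≠ 0 ∧ ∃ g, χ l (p g) ≠ 1 := by
    intro l hl
    simp only [hbdef] at hl
    split_ifs at hl with h
    · refine ⟨?_, h⟩
      intro h0
      rw [h0, zero_div] at hl
      exact lt_irrefl _ hl
    · exact absurd hl (lt_irrefl _)
  have hbrep : ∀ g, ∑ l, b l * (1 - (χ l (p g)).re) = ((k' 1).re - (k' (p g)).re) / A := by
    intro g
    rw [hrep, Finset.sum_div]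
    refine Finset.sum_congr rfl fun l _ => ?_
    simp only [hbdef]
    split_ifs with h
    · ring
    · push Not at h
      rw [h g]; simp
  have hbN : ∀ g, ∑ l, b l * (1 - (χ l (p g)).re) ≤ 2 ^ κ * (dev g / A) := by
    intro g
    rw [hbrep, ← mul_div_assoc]
    exact div_le_div_of_nonneg_right (hi g) hA0.le
  set BB : ℝ := ∑ l, b l with hBB
  have hBcard : (Fintype.card G : ℝ) * BB = (∑ g, ((k' 1).re - (k' (p g)).re)) / A := by
    rw [Finset.sum_div]
    simp only [← hbrep]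
    rw [Finset.sum_comm, hBB, Finset.mul_sum]
    refine Finset.sum_congr rfl fun l _ => ?_
    rcases (hb0 l).eq_or_lt with h0 | h0
    · rw [← h0]; simp
    · obtain ⟨-, g0, hg0⟩ := hbpos l h0
      have h1 : ∑ g : G, χ l (p g) = 0 :=
        sum_char_zero (χ := fun g => χ l (p g)) (fun g h => by rw [map_mul, hχ]) hg0
      have h2 : ∑ g : G, (χ l (p g)).re = 0 := by
        rw [← Complex.re_sum, h1, Complex.zero_re]
      rw [← Finset.mul_sum, Finset.sum_sub_distrib, h2, Finset.sum_const, Finset.card_univ,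
        nsmul_eq_mul]
      ring
  have hBlow : 1 ≤ 2 ^ κ * BB := by
    have h1 : T ≤ 2 ^ κ * ((Fintype.card G : ℝ) * BB * A) := by
      rw [hBcard, div_mul_cancel₀ _ hA0.ne']
      exact hii
    have h2 : T * 1 ≤ T * (2 ^ κ * BB) := by
      calc T * 1 = T := mul_one T
        _ ≤ 2 ^ κ * ((Fintype.card G : ℝ) * BB * A) := h1
        _ = (A * Fintype.card G) * (2 ^ κ * BB) := by ring
        _ = _ := by rw [hAT]
    exact le_of_mul_le_mul_left h2 hTpos
  have hBpos : 0 < BB := by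
    by_contra h
    push Not at h
    have h2 : (0 : ℝ) < 2 ^ κ := by positivity
    nlinarith
  set J : ℕ := 5 + 2 * κ + 2 * Nat.clog 2 s with hJdef
  have hJ : 8 * Real.pi * 2 ^ κ * (s : ℝ) ^ 2 ≤ 2 ^ J * BB := by
    have h1 : (s : ℝ) ≤ 2 ^ Nat.clog 2 s := by
      exact_mod_cast Nat.le_pow_clog (by norm_num : 1 < 2) s
    have h2 : (s : ℝ) ^ 2 ≤ (2 ^ Nat.clog 2 s) ^ 2 := by gcongr
    have h3 : Real.pi ≤ 4 := Real.pi_le_four
    calc 8 * Real.pi * 2 ^ κ * (s : ℝ) ^ 2 ≤ 8 * 4 * 2 ^ κ * (2 ^ Nat.clog 2 s) ^ 2 := by gcongr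
      _ = 32 * 2 ^ κ * (2 ^ Nat.clog 2 s) ^ 2 * 1 := by ring
      _ ≤ 32 * 2 ^ κ * (2 ^ Nat.clog 2 s) ^ 2 * (2 ^ κ * BB) := by gcongr
      _ = 2 ^ J * BB := by
        rw [hJdef, pow_add, pow_add, pow_mul', pow_mul']
        norm_num
        ring
  set Q : Finset G := univ.filter (fun t : G => c o (t • o) ≠ 0) with hQ
  have hs' : Fintype.card V < 2 ^ (s + 1) ∨ (Q.image (fun g : G => g • o)).card ≤ s := by
    rcases hs with h | h
    · exact Or.inl h
    · right
      refine (Finset.card_le_card ?_).trans h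
      intro v hv
      obtain ⟨t, ht, rfl⟩ := mem_image.1 hv
      simp only [hQ, mem_filter, mem_univ, true_and] at ht ⊢
      exact ht
  obtain ⟨b2, hb20, hb2le, hb2half, hb2Q⟩ := endgame2 (V := V) (fun l g => χ l (p g))
    (fun l g => hn l _) (fun l g h => by simp only [map_mul, hχ]) b hb0 (fun g => dev g / A)
    (fun g => div_nonneg (hdev0 g) hA0.le)
    (fun g h => by rw [← add_div]; exact div_le_div_of_nonneg_right (hdevmul g h) hA0.le)
    (2 ^ κ) (by positivity) hbN (fun g => g • o)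
    (by
      intro g h hgh l hl
      have h1 : (h⁻¹ * g) • o = o := by
        have : g • o = h • o := hgh
        rw [mul_smul, this, inv_smul_smul]
      have h2 := hst l (hbpos l hl).1 _ h1
      have h3 : χ l (p (h * (h⁻¹ * g))) = χ l (p h) * χ l (p (h⁻¹ * g)) := by
        rw [map_mul, hχ]
      rw [mul_inv_cancel_left, h2, mul_one] at h3
      exact h3) s J hJ Q hs'
  -- the cut inequality for each character
  have hcutl : ∀ l, a * (Fintype.card G * b2 l) ≤
      Real.sqrt 2 * ∑ t : G, c o (t • o) * (b2 l * ‖1 - χ l (p t)‖) := by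
    intro l
    rcases (hb20 l).eq_or_lt with h0 | h0
    · rw [← h0]; simp
    · obtain ⟨hl, g0, hg0⟩ := hbpos l (h0.trans_le (hb2le l))
      have h1 := char_cut hc0 hinv ha hcut o (χ := fun g => χ l (p g))
          (fun g h => by rw [map_mul, hχ]) (fun g => hn l _) (hst l hl)
      have h2 : ∑ g : G, χ l (p g) = 0 :=
        sum_char_zero (χ := fun g => χ l (p g)) (fun g h => by rw [map_mul, hχ]) hg0
      have h3 : ∑ g : G, (χ l (p g)).re = 0 := by
        rw [← Complex.re_sum, h2, Complex.zero_re]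
      have h4 : ∑ t : G, (1 - (χ l (p t)).re) = Fintype.card G := by
        rw [Finset.sum_sub_distrib, h3, Finset.sum_const, Finset.card_univ, nsmul_eq_mul]
        ring
      rw [h4] at h1
      calc a * (Fintype.card G * b2 l) = b2 l * (a * Fintype.card G) := by ring
        _ ≤ b2 l * (Real.sqrt 2 * ∑ t : G, c o (t • o) * ‖1 - χ l (p t)‖) :=
          mul_le_mul_of_nonneg_left h1 (hb20 l)
        _ = _ := by
          rw [mul_left_comm, Finset.mul_sum]
          congr 1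
          exact Finset.sum_congr rfl fun t _ => by ring
  have hsumcut : a * (Fintype.card G * ∑ l, b2 l) ≤
      Real.sqrt 2 * ∑ t : G, c o (t • o) * ∑ l, b2 l * ‖1 - χ l (p t)‖ := by
    calc a * (Fintype.card G * ∑ l, b2 l) = ∑ l, a * (Fintype.card G * b2 l) := by
          rw [Finset.mul_sum, Finset.mul_sum]
      _ ≤ ∑ l, Real.sqrt 2 * ∑ t : G, c o (t • o) * (b2 l * ‖1 - χ l (p t)‖) :=
          Finset.sum_le_sum fun l _ => hcutl l
      _ = _ := by
          rw [← Finset.mul_sum, Finset.sum_comm]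
          congr 1
          refine Finset.sum_congr rfl fun t _ => ?_
          rw [Finset.mul_sum]
  have hQbound : ∑ t : G, c o (t • o) * ∑ l, b2 l * ‖1 - χ l (p t)‖ ≤
      ∑ t : G, c o (t • o) * ((BB + 2 * Real.pi * 2 ^ κ * J) * (dev t / A)) := by
    refine Finset.sum_le_sum fun t _ => ?_
    by_cases ht : c o (t • o) = 0
    · rw [ht, zero_mul, zero_mul]
    · refine mul_le_mul_of_nonneg_left ?_ (hc0 _ _)
      exact hb2Q t (by simp only [hQ, mem_filter, mem_univ, true_and]; exact ht)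
  have hcomb : a * (Fintype.card G * (BB / 2)) ≤
      Real.sqrt 2 * ((BB + 2 * Real.pi * 2 ^ κ * J) / A * ∑ t : G, c o (t • o) * dev t) := by
    calc a * (Fintype.card G * (BB / 2)) ≤ a * (Fintype.card G * ∑ l, b2 l) := by gcongr
      _ ≤ _ := hsumcut
      _ ≤ Real.sqrt 2 * ∑ t : G, c o (t • o) * ((BB + 2 * Real.pi * 2 ^ κ * J) * (dev t / A)) := by
          gcongr
      _ = _ := by
          congr 1
          rw [Finset.mul_sum]
          exact Finset.sum_congr rfl fun t _ => by ring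
  -- final arithmetic
  have hpi := Real.pi_gt_three
  set C : ℝ := ∑ t : G, c o (t • o) * dev t with hC
  have hJcast : (J : ℝ) = 5 + 2 * κ + 2 * Nat.clog 2 s := by rw [hJdef]; push_cast; ring
  have h1 : a * T * BB ≤ 2 * Real.sqrt 2 * (BB + 2 * Real.pi * 2 ^ κ * J) * C := by
    have h2 := mul_le_mul_of_nonneg_left hcomb (by positivity : 0 ≤ 2 * A)
    calc a * T * BB = 2 * A * (a * (Fintype.card G * (BB / 2))) := by rw [← hAT]; ring
      _ ≤ 2 * A * (Real.sqrt 2 * ((BB + 2 * Real.pi * 2 ^ κ * J) / A * C)) := h2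
      _ = _ := by field_simp
  have h2 : 2 * Real.sqrt 2 * (BB + 2 * Real.pi * 2 ^ κ * J) ≤ R * BB := by
    have e4 : (4 : ℝ) ^ κ = 2 ^ κ * 2 ^ κ := by rw [← mul_pow]; norm_num
    have h4 : (1 : ℝ) ≤ 4 ^ κ := one_le_pow₀ (by norm_num)
    have h5 : 2 * Real.pi * 2 ^ κ * J ≤ 2 * Real.pi * 2 ^ κ * J * (2 ^ κ * BB) := by
      exact le_mul_of_one_le_right (by positivity) hBlow
    have h6 : 2 * Real.sqrt 2 * (BB + 2 * Real.pi * 2 ^ κ * J) ≤
        2 * Real.sqrt 2 * (BB + 2 * Real.pi * 2 ^ κ * J * (2 ^ κ * BB)) := by gcongr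
    refine h6.trans ?_
    have h7 : R * BB = Real.sqrt 2 * BB * (Real.pi * 4 ^ κ * (4 * J + 1)) := by
      rw [hR, hJcast]; ring
    have h8 : 2 * Real.sqrt 2 * (BB + 2 * Real.pi * 2 ^ κ * J * (2 ^ κ * BB)) =
        Real.sqrt 2 * BB * (2 + 4 * Real.pi * 4 ^ κ * J) := by
      rw [e4]; ring
    rw [h7, h8]
    refine mul_le_mul_of_nonneg_left ?_ (by positivity)
    nlinarith
  have h3 : a * T * BB ≤ R * C * BB := by
    calc a * T * BB ≤ 2 * Real.sqrt 2 * (BB + 2 * Real.pi * 2 ^ κ * J) * C := h1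
      _ ≤ R * BB * C := by gcongr
      _ = _ := by ring
  exact le_of_mul_le_mul_right h3 hBpos

end Vale.Agent.P318.H612
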